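import Vale.Agent.P346.Defs

/-!
The standard homogeneous depth five circuit for `IMM` obtained by cutting the product into blocks.
-/

namespace Vale.Agent.P346

open Finset MvPolynomial

set_option linter.unusedSectionVars false
set_option linter.unusedVariables false

universe u

section Mp

variable {R : Type u} [CommRing R] {ι : Type} [Fintype ι] [DecidableEq ι]

/-- Ordered product of the first matrices of a sequence. -/
def mp (A : ℕ → Matrix ι ι R) : ℕ → Matrix ι ι R
  | 0 => 1
  | d + 1 => mp A d * A d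

theorem mp_apply (A : ℕ → Matrix ι ι R) (d : ℕ) (s t : ι) :
    mp A d s t = ∑ p : Fin (d + 1) → ι, if p 0 = s ∧ p (Fin.last d) = t then
      ∏ i : Fin d, A i (p i.castSucc) (p i.succ) else 0 := by
  induction d generalizing t with
  | zero =>
    rw [← (Equiv.funUnique (Fin 1) ι).symm.sum_comp]
    simp only [mp, Matrix.one_apply, Equiv.funUnique_symm_apply, univ_eq_empty, prod_empty]
    change _ = ∑ x : ι, if x = s ∧ x = t then 1 else 0
    simp only [ite_and, sum_ite_eq', mem_univ, if_true]
  | succ d ih =>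
    rw [← (Fin.snocEquiv (fun _ => ι)).sum_comp, Fintype.sum_prod_type, sum_comm]
    simp only [mp, Matrix.mul_apply, ih, sum_mul]
    rw [sum_comm]
    refine sum_congr rfl (fun p _ => ?_)
    simp only [Fin.snocEquiv_apply, Fin.prod_univ_castSucc, Fin.snoc_last, Fin.snoc_castSucc,
      Fin.succ_castSucc, Fin.succ_last, Fin.val_castSucc, Fin.val_last]
    have : ∀ x : ι, (Fin.snoc p x : Fin (d + 2) → ι) 0 = p 0 := fun x =>
      Fin.snoc_castSucc (α := fun _ => ι) x p 0
    simp [this, ite_and]

theorem mp_add (A : ℕ → Matrix ι ι R) (m e : ℕ) :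
    mp A (m + e) = mp A m * mp (fun l => A (m + l)) e := by
  induction e with
  | zero => simp [mp]
  | succ e ih => rw [← add_assoc, mp, mp, ih, mul_assoc]

theorem mp_mul (A : ℕ → Matrix ι ι R) (b j : ℕ) :
    mp A (j * b) = mp (fun j => mp (fun l => A (j * b + l)) b) j := by
  induction j with
  | zero => simp [mp]
  | succ j ih => rw [add_mul, one_mul, mp_add, ih, mp]

theorem mp_one (A : ℕ → Matrix ι ι R) (n : ℕ) (h : ∀ i, n ≤ i → A i = 1) (m : ℕ) (hm : n ≤ m) :
    mp A m = mp A n := by
  induction m, hm using Nat.le_induction with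
  | base => rfl
  | succ m hm ih => rw [mp, ih, h m hm, mul_one]

end Mp

variable (K : Type u) [Field K] (n b : ℕ)

/-- The generic matrices, extended by identity matrices. -/
noncomputable def gen (i : ℕ) : Matrix (Fin n) (Fin n) (MvPolynomial (Fin n × Fin n × Fin n) K) :=
  if h : i < n then Matrix.of fun s t => X (⟨i, h⟩, s, t) else 1

/-- The block circuit. -/
noncomputable def blockCircuit : Circuit K (Fin n × Fin n × Fin n) where
  L0 := Option (Fin n × Fin n × Fin n)
  L1 := Fin b × Fin b × Fin n × Fin n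
  L2 := Fin b × (Fin (b + 1) → Fin n)
  L3 := Fin b × Fin n × Fin n
  L4 := Fin (b + 1) → Fin n
  fin0 := inferInstance
  fin1 := inferInstance
  fin2 := inferInstance
  fin3 := inferInstance
  fin4 := inferInstance
  leaf := fun o => o.elim (Sum.inr 1) Sum.inl
  in1 := fun g => if h : g.1 * b + g.2.1 < n then {some (⟨_, h⟩, g.2.2)} else {none}
  c1 := fun g _ => if g.1 * b + g.2.1 < n then 1 else if g.2.2.1 = g.2.2.2 then 1 else 0
  in2 := fun g => univ.val.map (fun l : Fin b => (g.1, l, g.2 l.castSucc, g.2 l.succ))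
  in3 := fun g => {g.1} ×ˢ univ.filter (fun p => p 0 = g.2.1 ∧ p (Fin.last b) = g.2.2)
  c3 := fun _ _ => 1
  in4 := fun q => univ.val.map (fun j : Fin b => (j, q j.castSucc, q j.succ))
  in5 := univ.filter (fun q => (q 0 : ℕ) = 0 ∧ (q (Fin.last b) : ℕ) = 0)
  c5 := fun _ => 1

theorem blockCircuit_hom : (blockCircuit K n b).Homogeneous := by
  refine ⟨fun g => if g.1 * b + g.2.1 < n then 1 else 0,
    fun g => ∑ l : Fin b, if g.1 * b + l < n then 1 else 0,
    ∑ j : Fin b, ∑ l : Fin b, if j * b + l < n then 1 else 0, ?_, ?_, ?_⟩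
  · intro g i hi
    simp only [blockCircuit] at hi
    split_ifs at hi with h
    · rw [mem_singleton.1 hi]; exact (if_pos h).symm
    · rw [mem_singleton.1 hi]; exact (if_neg h).symm
  · intro g i hi
    have := mem_singleton.1 (mem_product.1 hi).1
    simp only [blockCircuit, Multiset.map_map, Function.comp_def, this]
    rfl
  · intro i _
    simp only [blockCircuit, Multiset.map_map, Function.comp_def]
    rfl

theorem blockCircuit_val1 (j l : Fin b) (s t : Fin n) :
    (blockCircuit K n b).val1 (j, l, s, t) = gen K n (j * b + l) s t := by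
  simp only [Circuit.val1, blockCircuit, gen]
  split_ifs with h h'
  · rw [sum_singleton]; simp [Circuit.val0]
  · rw [sum_singleton]; simp [Circuit.val0, Matrix.one_apply, h']
  · rw [sum_singleton]; simp [Circuit.val0, h']

theorem blockCircuit_val3 (j : Fin b) (s t : Fin n) :
    (blockCircuit K n b).val3 (j, s, t) = mp (fun l => gen K n (j * b + l)) b s t := by
  rw [mp_apply, ← sum_filter]
  refine (sum_product _ _ _).trans ?_
  rw [sum_singleton]
  refine sum_congr rfl (fun p _ => ?_)
  simp only [← blockCircuit_val1]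
  rw [show (blockCircuit K n b).c3 (j, s, t) (j, p) = 1 from rfl, map_one, one_mul]
  exact congrArg Multiset.prod (Multiset.map_map (blockCircuit K n b).val1
    (fun l : Fin b => (j, l, p l.castSucc, p l.succ)) univ.val)

theorem blockCircuit_out (hn : 0 < n) (hb : n ≤ b * b) : (blockCircuit K n b).out = IMM K n n := by
  have e1 : IMM K n n = mp (gen K n) n ⟨0, hn⟩ ⟨0, hn⟩ := by
    rw [mp_apply, ← sum_filter, IMM]
    refine sum_congr (by simp only [Fin.ext_iff]) (fun p _ => prod_congr rfl (fun i _ => ?_))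
    simp [gen]
  rw [e1, ← mp_one _ n (fun i hi => dif_neg (by omega)) _ hb, mp_mul, mp_apply, ← sum_filter]
  refine sum_congr (by simp only [Fin.ext_iff]; rfl) (fun p _ => ?_)
  simp only [← blockCircuit_val3]
  rw [show (blockCircuit K n b).c5 p = 1 from rfl, map_one, one_mul]
  exact congrArg Multiset.prod (Multiset.map_map (blockCircuit K n b).val3
    (fun j : Fin b => (j, p j.castSucc, p j.succ)) univ.val)

theorem blockCircuit_size (hn : 7 ≤ n) (hb : b ≤ n) (hb' : 2 ≤ b) :
    (blockCircuit K n b).size ≤ n ^ (b + 3) := by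
  have e : (blockCircuit K n b).size = n * (n * n) + 1 + b * (b * (n * n)) + b * n ^ (b + 1) +
      b * (n * n) + n ^ (b + 1) + 1 := by
    simp [Circuit.size, blockCircuit]
  have p : ∀ j, j ≤ b + 2 → n ^ j ≤ n ^ (b + 2) := fun j hj => Nat.pow_le_pow_right (by omega) hj
  have a0 := p 0 (by omega)
  have a1 := p 3 (by omega)
  have a2 := p 4 (by omega)
  have a3 := p (b + 1) (by omega)
  have c1 : b * (b * (n * n)) ≤ n ^ 4 := by
    calc _ ≤ n * (n * (n * n)) := by gcongr
      _ = _ := by ring
  have c2 : b * n ^ (b + 1) ≤ n ^ (b + 2) := by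
    calc _ ≤ n * n ^ (b + 1) := by gcongr
      _ = _ := by ring
  have c3 : b * (n * n) ≤ n ^ 3 := by
    calc _ ≤ n * (n * n) := by gcongr
      _ = _ := by ring
  have c4 : n * (n * n) = n ^ 3 := by ring
  have c5 : 7 * n ^ (b + 2) ≤ n ^ (b + 3) := by
    calc _ ≤ n * n ^ (b + 2) := by gcongr
      _ = _ := by ring
  rw [pow_zero] at a0
  omega

end Vale.Agent.P346
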