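import Vale.Agent.P346.AFLead
import Vale.Agent.P346.Upper

/-! The projection of `IMM` and the rank upper bound for circuits. -/

namespace Vale.Agent.P346.AF
open Finset MvPolynomial

universe u v

section Generic
variable (K : Type u) [Field K] (n : ℕ)

noncomputable def GG : Fin n → Fin n → FractionRing (MvPolynomial (Fin n × Fin n) K) :=
  fun t s => algebraMap (MvPolynomial (Fin n × Fin n) K) _ (X (t, s))

lemma super_GG : Super (GG K n) := by
  classical
  intro T Cs s hs hc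
  obtain ⟨e⟩ : Nonempty (Cs ↪ T) := Function.Embedding.nonempty_of_card_le (by simpa using hc)
  let M0 : Matrix Cs Cs (MvPolynomial (Fin n × Fin n) K) := Matrix.of fun a b => X ((e a).1, b.1)
  have h0 : M0.det ≠ 0 := by
    intro h
    have := RingHom.map_det (eval (fun v : Fin n × Fin n =>
      if ∃ a : Cs, (e a).1 = v.1 ∧ a.1 = v.2 then (1 : K) else 0)) M0
    rw [h, map_zero] at this
    have h1 : (eval (fun v : Fin n × Fin n =>
        if ∃ a : Cs, (e a).1 = v.1 ∧ a.1 = v.2 then (1 : K) else 0)).mapMatrix M0 = 1 := by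
      ext a b
      simp only [M0, RingHom.mapMatrix_apply, Matrix.map_apply, Matrix.of_apply, eval_X,
        Matrix.one_apply]
      by_cases hab : a = b
      · rw [if_pos hab, if_pos ⟨a, rfl, by rw [hab]⟩]
      · rw [if_neg hab, if_neg]
        rintro ⟨a', h1, h2⟩
        exact hab ((e.injective (Subtype.ext h1)).symm.trans (Subtype.ext h2))
    rw [h1, Matrix.det_one] at this
    exact zero_ne_one this
  let M : Matrix Cs Cs (FractionRing (MvPolynomial (Fin n × Fin n) K)) :=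
    (algebraMap (MvPolynomial (Fin n × Fin n) K) _).mapMatrix M0
  have h1 : IsUnit M.det := by
    rw [isUnit_iff_ne_zero, ← RingHom.map_det]
    exact fun h => h0 ((IsFractionRing.injective (MvPolynomial (Fin n × Fin n) K) _)
      (by rw [h, map_zero]))
  let c' := Matrix.vecMul (Pi.single (⟨s, hs⟩ : Cs) 1) M⁻¹
  have h2 : Matrix.vecMul c' M = Pi.single (⟨s, hs⟩ : Cs) 1 := by
    simp only [c', Matrix.vecMul_vecMul, Matrix.nonsing_inv_mul M h1, Matrix.vecMul_one]
  refine ⟨fun t => ∑ a : Cs, if (e a).1 = t then c' a else 0, ?_, ?_⟩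
  · intro t ht
    exact sum_eq_zero (fun a _ => if_neg (fun h => ht (by rw [← h]; exact (e a).2)))
  · intro s' hs'
    have h3 := congrFun h2 ⟨s', hs'⟩
    simp only [Matrix.vecMul, dotProduct, Pi.single_apply, Subtype.mk.injEq] at h3
    rw [← h3]
    simp only [sum_mul, ite_mul, zero_mul]
    rw [sum_comm]
    refine sum_congr rfl (fun a _ => ?_)
    rw [sum_ite_eq, if_pos (mem_univ _)]
    rfl

end Generic

variable {K : Type u} [Field K] {L : Type v} [Field L] {n : ℕ}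

noncomputable def lin (G : Fin n → Fin n → L) (v : Fin n × Fin n × Fin n) :
    MvPolynomial (ℕ × Fin n) L :=
  if v.1.val = 0 then ∑ s, C (G v.2.2 s) * X (0, s) else C (G v.2.2 v.2.1) * X (v.1.val, v.2.1)

noncomputable def proj (f : K →+* L) (G : Fin n → Fin n → L) :
    MvPolynomial (Fin n × Fin n × Fin n) K →+* MvPolynomial (ℕ × Fin n) L :=
  eval₂Hom (C.comp f) (lin G)

lemma hom_C_mul {X : Type} (a : L) {g : MvPolynomial X L} {e : ℕ} (h : Hom g e) :
    Hom (C a * g) e := by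
  have := (Hom.C (X := X) a).mul h
  rwa [zero_add] at this

lemma hom_lin (G : Fin n → Fin n → L) (v : Fin n × Fin n × Fin n) : Hom (lin G v) 1 := by
  unfold lin
  split_ifs
  · exact Hom.sum _ _ _ (fun s _ => hom_C_mul _ (Hom.var _))
  · exact hom_C_mul _ (Hom.var _)

lemma hom_FF (G : Fin n → Fin n → L) : ∀ (m : ℕ) (t : Fin n), Hom (FF G m t) m
  | 0, _ => by simpa [FF] using Hom.C (X := ℕ × Fin n) (1 : L)
  | m + 1, t => by
    unfold FF
    refine Hom.sum _ _ _ (fun s _ => ?_)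
    rw [add_comm]
    exact (hom_C_mul _ (Hom.var _)).mul (hom_FF G m s)

lemma proj_IMM (f : K →+* L) (G : Fin n → Fin n → L) (hn : 0 < n) :
    proj f G (IMM K n n) = FF G n ⟨0, hn⟩ := by
  have e1 : IMM K n n = mp (gen K n) n ⟨0, hn⟩ ⟨0, hn⟩ := by
    rw [mp_apply, ← sum_filter, IMM]
    refine sum_congr (by simp only [Fin.ext_iff]) (fun p _ => prod_congr rfl (fun i _ => ?_))
    simp [gen]
  have key : ∀ d, d + 1 ≤ n → ∀ t, proj f G (mp (gen K n) (d + 1) ⟨0, hn⟩ t) = FF G (d + 1) t := by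
    intro d
    induction d with
    | zero =>
      intro _ t
      simp [mp, gen, hn, proj, lin, FF]
    | succ d ih =>
      intro hd t
      rw [mp, Matrix.mul_apply, map_sum, FF]
      refine sum_congr rfl (fun s _ => ?_)
      rw [map_mul, ih (by omega), mul_comm]
      congr 1
      simp [gen, show d + 1 < n by omega, proj, lin]
  obtain ⟨d, rfl⟩ : ∃ d, n = d + 1 := ⟨n - 1, by omega⟩
  rw [e1]
  exact key d le_rfl _

section Chunk
variable {X ι : Type} (val : ι → MvPolynomial X L) (deg : ι → ℕ) (τ : ℕ)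

lemma chunk_pre (s : Multiset ι) (hs : ∀ i ∈ s, Hom (val i) (deg i) ∧ deg i ≤ τ) :
    ∀ (G0 : MvPolynomial X L) (e0 : ℕ), Hom G0 e0 → e0 < τ → τ ≤ e0 + (s.map deg).sum →
      ∃ (G : MvPolynomial X L) (e : ℕ) (s' : Multiset ι), (∀ i ∈ s', i ∈ s) ∧ Hom G e ∧ τ ≤ e ∧
        e < 2 * τ ∧ G0 * (s.map val).prod = G * (s'.map val).prod ∧
        e0 + (s.map deg).sum = e + (s'.map deg).sum := by
  induction s using Multiset.induction_on with
  | empty =>
    intro G0 e0 _ h1 h2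
    simp at h2; omega
  | cons i s ih =>
    intro G0 e0 h0 h1 h2
    have hi := hs i (Multiset.mem_cons_self _ _)
    simp only [Multiset.map_cons, Multiset.prod_cons, Multiset.sum_cons] at h2 ⊢
    by_cases h3 : τ ≤ e0 + deg i
    · exact ⟨G0 * val i, e0 + deg i, s, fun j hj => Multiset.mem_cons_of_mem hj, h0.mul hi.1, h3,
        by omega, by ring, by ring⟩
    · obtain ⟨G, e, s', a1, a2, a3, a4, a5, a6⟩ := ih
        (fun j hj => hs j (Multiset.mem_cons_of_mem hj)) (G0 * val i) (e0 + deg i) (h0.mul hi.1)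
        (by omega) (by omega)
      exact ⟨G, e, s', fun j hj => Multiset.mem_cons_of_mem (a1 j hj), a2, a3, a4,
        by rw [← a5]; ring, by omega⟩

lemma chunk (hτ : 1 ≤ τ) : ∀ (r : ℕ) (s : Multiset ι),
    (∀ i ∈ s, Hom (val i) (deg i) ∧ deg i ≤ τ) → r * (2 * τ) ≤ (s.map deg).sum + r →
      ∃ (Gs : List (MvPolynomial X L)) (R : MvPolynomial X L), Gs.length = r ∧
        (∀ G ∈ Gs, ∃ e, Hom G e ∧ τ ≤ e ∧ e < 2 * τ) ∧ (s.map val).prod = Gs.prod * R
  | 0, s, _, _ => ⟨[], (s.map val).prod, rfl, by simp, by simp⟩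
  | r + 1, s, hs, hr => by
    obtain ⟨G, e, s', a1, a2, a3, a4, a5, a6⟩ := chunk_pre val deg τ s hs 1 0
      (by simpa using Hom.C (X := X) (1 : L)) (by omega) (by nlinarith)
    obtain ⟨Gs, R, b1, b2, b3⟩ := chunk hτ r s' (fun i hi => hs i (a1 i hi)) (by nlinarith)
    refine ⟨G :: Gs, R, by simp [b1], ?_, ?_⟩
    · intro G' hG'
      rcases List.mem_cons.1 hG' with h | h
      · exact ⟨e, h ▸ a2, a3, a4⟩
      · exact b2 G' h
    · rw [one_mul] at a5
      rw [a5, b3, List.prod_cons, mul_assoc]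

end Chunk

theorem mu_circuit (f : K →+* L) (G : Fin n → Fin n → L) (hn : 0 < n) (w : ℕ → ℤ) (u : ℕ)
    (hu : 1 ≤ u) (hw : ∀ j, w j = 3 * u + 1 ∨ w j = -(3 * u)) (hun : 8 * (u * u) ≤ n)
    (ω ω' ω0 : ℤ) (h1 : ω' - u * u ≤ ω0) (h2 : ω - u * u ≤ ω0)
    (Γ : Circuit K (Fin n × Fin n × Fin n)) (hΓ : Γ.Homogeneous) (hout : Γ.out = IMM K n n) :
    mu w ω ω' (FF G n ⟨0, hn⟩) ≤ Γ.size * (Γ.size * (2 ^ (2 * u) * cnt n w ω0)) := by
  obtain ⟨d1, d3, d5, g1, g3, g5⟩ := hΓ
  have pC : ∀ c : K, proj f G (C c) = C (f c) := fun c => by simp [proj]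
  have v0 : ∀ i, Hom (proj f G (Γ.val0 i)) (Γ.deg0 i) := by
    intro i
    unfold Circuit.val0 Circuit.deg0
    cases Γ.leaf i
    · simpa [proj] using hom_lin G _
    · simpa [pC] using Hom.C _
  have v1 : ∀ g, Hom (proj f G (Γ.val1 g)) (d1 g) := fun g => by
    rw [Circuit.val1, map_sum]
    exact Hom.sum _ _ _ (fun i hi => by
      rw [map_mul, pC, ← g1 g i hi]; exact hom_C_mul _ (v0 i))
  have e2 : ∀ g, proj f G (Γ.val2 g) = ((Γ.in2 g).map (fun i => proj f G (Γ.val1 i))).prod := by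
    intro g
    rw [Circuit.val2, map_multiset_prod, Multiset.map_map]; rfl
  have v2 : ∀ g, Hom (proj f G (Γ.val2 g)) ((Γ.in2 g).map d1).sum := fun g => by
    rw [e2]; exact Hom.prod _ _ _ (fun i _ => v1 i)
  have e3 : ∀ g, proj f G (Γ.val3 g) = ∑ i ∈ Γ.in3 g, C (f (Γ.c3 g i)) * proj f G (Γ.val2 i) := by
    intro g
    rw [Circuit.val3, map_sum]
    exact sum_congr rfl (fun i _ => by rw [map_mul, pC])
  have v3 : ∀ g, Hom (proj f G (Γ.val3 g)) (d3 g) := fun g => by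
    rw [e3]
    exact Hom.sum _ _ _ (fun i hi => by rw [← g3 g i hi]; exact hom_C_mul _ (v2 i))
  have e4 : ∀ g, proj f G (Γ.val4 g) = ((Γ.in4 g).map (fun i => proj f G (Γ.val3 i))).prod := by
    intro g
    rw [Circuit.val4, map_multiset_prod, Multiset.map_map]; rfl
  have v4 : ∀ g, Hom (proj f G (Γ.val4 g)) ((Γ.in4 g).map d3).sum := fun g => by
    rw [e4]; exact Hom.prod _ _ _ (fun i _ => v3 i)
  have e5 : FF G n ⟨0, hn⟩ = ∑ i ∈ Γ.in5, C (f (Γ.c5 i)) * proj f G (Γ.val4 i) := by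
    rw [← proj_IMM f G hn, ← hout, Circuit.out, map_sum]
    exact sum_congr rfl (fun i _ => by rw [map_mul, pC])
  have v5 : Hom (FF G n ⟨0, hn⟩) d5 := by
    rw [e5]
    exact Hom.sum _ _ _ (fun i hi => by rw [← g5 i hi]; exact hom_C_mul _ (v4 i))
  by_cases hd : d5 = n
  swap
  · have : FF G n ⟨0, hn⟩ = 0 := by
      rw [← support_eq_empty, eq_empty_iff_forall_notMem]
      intro m hm
      exact hd ((v5 m hm).symm.trans (hom_FF G n _ m hm))
    rw [this, mu_zero]
    exact Nat.zero_le _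
  obtain ⟨B, hB⟩ : ∃ B, B = 2 ^ (2 * u) * cnt n w ω0 := ⟨_, rfl⟩
  rw [← hB]
  have s1 : 1 ≤ Γ.size := Nat.le_add_left _ _
  have s2 : ∀ g, (Γ.in3 g).card ≤ Γ.size := by
    intro g
    have := @card_le_univ _ Γ.fin2 (Γ.in3 g)
    unfold Circuit.size
    omega
  have s4 : Γ.in5.card ≤ Γ.size := by
    have := @card_le_univ _ Γ.fin4 Γ.in5
    unfold Circuit.size
    omega
  rw [e5]
  refine (mu_sum w ω ω' _ _ (Γ.size * B) (fun i hi => ?_)).trans (Nat.mul_le_mul_right _ s4)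
  by_cases hτ : ∀ g ∈ Γ.in4 i, d3 g ≤ 2 * u
  · obtain ⟨Gs, R, b1, b2, b3⟩ := chunk (fun i => proj f G (Γ.val3 i)) d3 (2 * u) (by omega)
      (2 * u) (Γ.in4 i) (fun g hg => ⟨v3 g, hτ g hg⟩) (by rw [g5 i hi, hd]; nlinarith)
    rw [e4, b3, show C (f (Γ.c5 i)) * (Gs.prod * R) = Gs.prod * (C (f (Γ.c5 i)) * R) by ring]
    refine (mu_groups w ω ω' ω0 u h1 h2 _ Gs (fun G' hG' m hm => ?_) b1).trans ?_
    · obtain ⟨e, c1, c2, c3⟩ := b2 G' hG'
      exact wt_far w u hw m (Or.inr (by rw [c1 m hm]; omega))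
    · rw [← hB]; exact Nat.le_mul_of_pos_left _ s1
  · push Not at hτ
    obtain ⟨g, hg, hτ⟩ := hτ
    obtain ⟨t, ht⟩ := Multiset.exists_cons_of_mem hg
    rw [e4, ht, Multiset.map_cons, Multiset.prod_cons, e3, sum_mul, mul_sum]
    refine (mu_sum w ω ω' _ _ B (fun j hj => ?_)).trans (Nat.mul_le_mul_right _ (s2 g))
    by_cases h0 : ∀ l ∈ Γ.in2 j, (Γ.in1 l).Nonempty
    · obtain ⟨Gs, R, b1, b2, b3⟩ := chunk (fun i => proj f G (Γ.val1 i)) d1 1 le_rfl
        (2 * u) (Γ.in2 j) (fun l hl => ⟨v1 l, by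
          obtain ⟨m, hm⟩ := h0 l hl
          rw [← g1 l m hm]
          unfold Circuit.deg0
          cases Γ.leaf m <;> simp⟩) (by rw [g3 g j hj]; omega)
      rw [e2, b3, show ∀ a b c : MvPolynomial (ℕ × Fin n) L,
        a * (b * (Gs.prod * R) * c) = Gs.prod * (a * b * R * c) from fun a b c => by ring, hB]
      refine mu_groups w ω ω' ω0 u h1 h2 _ Gs (fun G' hG' m hm => ?_) b1
      obtain ⟨e, c1, c2, c3⟩ := b2 G' hG'
      exact wt_far w u hw m (Or.inl (by rw [c1 m hm]; omega))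
    · push Not at h0
      obtain ⟨l, hl, h0⟩ := h0
      have : Γ.val2 j = 0 := by
        refine Multiset.prod_eq_zero (Multiset.mem_map.2 ⟨l, hl, ?_⟩)
        rw [Circuit.val1, h0, sum_empty]
      rw [this, map_zero, mul_zero, zero_mul, mul_zero, mu_zero]
      exact Nat.zero_le _

end Vale.Agent.P346.AF
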