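import Vale.Agent.P346.Params
import Vale.Agent.P346.Upper

/-!
Both bounds for the least circuit size.
-/

namespace Vale.Agent.P346

open Real

universe u

theorem s_mem (K : Type u) [Field K] {n : ℕ} (hn : 0 < n) :
    ∃ Γ : Circuit K (Fin n × Fin n × Fin n), Γ.Homogeneous ∧ Γ.out = IMM K n n ∧
      Γ.size = s K n :=
  Nat.sInf_mem (s := {m | ∃ Γ : Circuit K (Fin n × Fin n × Fin n),
    Γ.Homogeneous ∧ Γ.out = IMM K n n ∧ Γ.size = m})
    ⟨_, blockCircuit K n n, blockCircuit_hom K n n,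
      blockCircuit_out K n n hn (Nat.le_mul_self n), rfl⟩

theorem s_upper (K : Type u) [Field K] {n : ℕ} (hn : 16 ≤ n) :
    (s K n : ℝ) ≤ (n : ℝ) ^ (2 * √n) := by
  have y1 : n.sqrt * n.sqrt ≤ n := Nat.sqrt_le n
  have y2 : n < (n.sqrt + 1) * (n.sqrt + 1) := Nat.lt_succ_sqrt n
  have y3 : 4 ≤ n.sqrt := Nat.le_sqrt.2 hn
  have h1 : s K n ≤ (blockCircuit K n (n.sqrt + 1)).size :=
    Nat.sInf_le ⟨_, blockCircuit_hom K n _, blockCircuit_out K n _ (by omega) y2.le, rfl⟩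
  have h2 := blockCircuit_size K n (n.sqrt + 1) (by omega) (by nlinarith) (by omega)
  have h3 : (s K n : ℝ) ≤ (n : ℝ) ^ (n.sqrt + 1 + 3) := by exact_mod_cast h1.trans h2
  refine h3.trans ?_
  rw [← rpow_natCast]
  refine rpow_le_rpow_of_exponent_le (by exact_mod_cast (by omega)) ?_
  have h4 : (n.sqrt : ℝ) ≤ √n := Real.nat_sqrt_le_real_sqrt
  have h5 : (4 : ℝ) ≤ n.sqrt := by exact_mod_cast y3
  push_cast
  linarith

theorem s_lower (K : Type u) [Field K] [CharZero K] {n : ℕ} (hn : 3 ^ 256 * 3 ^ 256 ≤ n) :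
    (n : ℝ) ^ (1 / 768 * √n) ≤ s K n := by
  obtain ⟨Γ, h1, h2, h3⟩ := s_mem K (n := n) (lt_of_lt_of_le (by positivity) hn)
  rw [← h3]
  exact lower_bound K hn Γ h1 h2

end Vale.Agent.P346
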