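import Vale.Agent.P346.AFCirc
import Vale.Agent.P346.Final

/-! The lower bound over every field. -/

namespace Vale.Agent.P346.AF
open Finset MvPolynomial

universe u

/-- greedy balanced word -/
def ch (p : ℤ) : ℕ → ℤ
  | 0 => 0
  | m + 1 => if ch p m ≤ 0 then ch p m + (p + 1) else ch p m - p

def ww (p : ℤ) (j : ℕ) : ℤ := if ch p j ≤ 0 then p + 1 else -p

lemma ch_succ (p : ℤ) (m : ℕ) : ch p (m + 1) = ch p m + ww p m := by
  simp only [ch, ww]; split_ifs <;> ring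

lemma ch_bound {p : ℤ} (hp : 0 ≤ p) : ∀ m, -p ≤ ch p m ∧ ch p m ≤ p + 1
  | 0 => by simp [ch]; omega
  | m + 1 => by
    have := ch_bound hp m
    simp only [ch]; split_ifs <;> omega

lemma chi_ww (p : ℤ) : ∀ m, chi (ww p) m = ch p m
  | 0 => by simp [chi, ch]
  | m + 1 => by
    have := chi_ww p m
    rw [ch_succ, ← this, chi, chi, sum_range_succ]

lemma ww_cases (p : ℤ) (j : ℕ) : ww p j = p + 1 ∨ ww p j = -p := by
  unfold ww; split_ifs <;> simp

variable {n : ℕ}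

lemma wt_ind (w : ℕ → ℤ) {m : ℕ} (U : Fin m → Finset (Fin n)) :
    wt w (ind U) = ∑ j : Fin m, ((U j).card : ℤ) * w j := by
  unfold ind
  rw [map_sum]
  simp [wt_indL]

lemma W_eq (w : ℕ → ℤ) (a : ℝ) {m : ℕ} (U : Fin m → Finset (Fin n)) :
    W (fun j => Real.exp (-(a * w j))) U = Real.exp (-(a * wt w (ind U))) := by
  rw [wt_ind, W]
  push_cast
  rw [mul_sum, ← sum_neg_distrib, Real.exp_sum]
  refine prod_congr rfl (fun j _ => ?_)
  rw [← Real.exp_nat_mul]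
  congr 1
  ring

lemma cnt_le (w : ℕ → ℤ) {a : ℝ} (ha : 0 ≤ a) (ω : ℤ) :
    (cnt n w ω : ℝ) ≤ Real.exp (a * ω) * Zt (fun j => Real.exp (-(a * w j))) n n := by
  unfold cnt Zt
  rw [mul_sum, card_filter]
  push_cast
  refine sum_le_sum (fun U _ => ?_)
  rw [W_eq, ← Real.exp_add]
  split_ifs with h
  · apply Real.one_le_exp
    have : (wt w (ind U) : ℝ) ≤ ω := by exact_mod_cast h
    nlinarith
  · positivity

lemma wt_mem {p : ℤ} (hp : 0 ≤ p) (U : Fin n → Finset (Fin n)) :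
    wt (ww p) (ind U) ∈ Icc (-(n * (n * (p + 1)))) (n * (n * (p + 1))) := by
  rw [mem_Icc, ← abs_le, wt_ind]
  refine (abs_sum_le_sum_abs _ _).trans ?_
  refine (sum_le_card_nsmul _ _ (n * (p + 1)) (fun j _ => ?_)).trans (by simp)
  rw [abs_mul, Nat.abs_cast]
  have h1 : ((U j).card : ℤ) ≤ n := by
    have : (U j).card ≤ n := by simpa using card_le_univ (U j)
    exact_mod_cast this
  have h2 : |ww p j| ≤ p + 1 := by
    rcases ww_cases p j with h | h <;> rw [h, abs_le] <;> omega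
  exact mul_le_mul h1 h2 (abs_nonneg _) (Nat.cast_nonneg _)

theorem core (K : Type u) [Field K] (hn : 0 < n) (u : ℕ) (hu : 1 ≤ u) (hun : 8 * (u * u) ≤ n)
    {a : ℝ} (ha : 0 ≤ a) (Γ : Circuit K (Fin n × Fin n × Fin n)) (hΓ : Γ.Homogeneous)
    (hout : Γ.out = IMM K n n) :
    Sv (fun j => Real.exp (-(a * ww (3 * u) j))) n n 1 ≤
      (2 * (n * (n * (3 * u + 1))) + 1) * ((Γ.size : ℝ) ^ 2 * 2 ^ (2 * u) *
        Real.exp (a * (3 * u - u * u)) * Zt (fun j => Real.exp (-(a * ww (3 * u) j))) n n) := by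
  classical
  have hp : (0 : ℤ) ≤ 3 * u := by positivity
  unfold Sv
  rw [← sum_fiberwise_of_maps_to (s := univ) (g := fun U => wt (ww (3 * u)) (ind U))
    (fun U _ => wt_mem hp U)]
  refine (sum_le_card_nsmul _ _ ((Γ.size : ℝ) ^ 2 * 2 ^ (2 * u) *
        Real.exp (a * (3 * u - u * u)) * Zt (fun j => Real.exp (-(a * ww (3 * u) j))) n n)
        (fun ω _ => ?_)).trans (le_of_eq ?_)
  swap
  · rw [nsmul_eq_mul, Int.card_Icc]
    congr 1
    have : (n : ℤ) * (n * (3 * u + 1)) + 1 - -(n * (n * (3 * u + 1))) =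
        ((2 * (n * (n * (3 * u + 1))) + 1 : ℕ) : ℤ) := by push_cast; ring
    rw [this, Int.toNat_natCast]
    push_cast; ring
  have hb := ch_bound hp n
  have h1 := mu_lower (GG K n) (super_GG K n) (ww (3 * u)) ω ⟨0, hn⟩
  have h2 := mu_circuit ((algebraMap (MvPolynomial (Fin n × Fin n) K)
      (FractionRing (MvPolynomial (Fin n × Fin n) K))).comp C) (GG K n) hn (ww (3 * u)) u hu
    (ww_cases _) hun ω (ω - chi (ww (3 * u)) n) (ω + 3 * u - u * u)
    (by rw [chi_ww]; omega) (by omega) Γ hΓ hout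
  have h3 := (Nat.cast_le (α := ℝ)).2 (h1.trans h2)
  have h4 := cnt_le (n := n) (ww (3 * u)) ha (ω + 3 * u - u * u)
  have e : ∑ U ∈ univ.filter (fun U : Fin n → Finset (Fin n) => wt (ww (3 * u)) (ind U) = ω),
      W (fun j => Real.exp (-(a * ww (3 * u) j))) U * (if Good n 1 U then 1 else 0) =
      ((univ.filter (fun U : Fin n → Finset (Fin n) =>
        Good n 1 U ∧ wt (ww (3 * u)) (ind U) = ω)).card : ℝ) * Real.exp (-(a * ω)) := by
    rw [card_filter, sum_filter]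
    push_cast
    rw [sum_mul]
    refine sum_congr rfl (fun U _ => ?_)
    rw [W_eq]
    by_cases c1 : wt (ww (3 * u)) (ind U) = ω <;> by_cases c2 : Good n 1 U <;> simp [c1, c2]
  rw [e]
  push_cast at h3 h4
  have h5 : Real.exp (a * (ω + 3 * u - u * u)) * Real.exp (-(a * ω)) =
      Real.exp (a * (3 * u - u * u)) := by
    rw [← Real.exp_add]; congr 1; ring
  calc _ ≤ (Γ.size * (Γ.size * (2 ^ (2 * u) * (Real.exp (a * (ω + 3 * u - u * u)) *
        Zt (fun j => Real.exp (-(a * ww (3 * u) j))) n n)))) * Real.exp (-(a * ω)) := by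
        refine mul_le_mul_of_nonneg_right (h3.trans ?_) (Real.exp_pos _).le
        gcongr
    _ = _ := by rw [← h5]; ring

lemma surv_final (u : ℕ) {ℓ : ℝ} (hℓ : Real.exp ℓ = n) (hl : 115200 ≤ ℓ) :
    Zt (fun j => Real.exp (-(ℓ / (8 * (3 * u + 1)) * ww (3 * u) j))) n n *
      Real.exp (-(112 * Real.exp (ℓ / 2)) - ℓ) ≤
      Sv (fun j => Real.exp (-(ℓ / (8 * (3 * u + 1)) * ww (3 * u) j))) n n 1 := by
  obtain ⟨a, ha⟩ : ∃ a : ℝ, a = ℓ / (8 * (3 * u + 1)) := ⟨_, rfl⟩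
  rw [← ha]
  have ha0 : 0 ≤ a := by rw [ha]; positivity
  have hp : (0 : ℤ) ≤ 3 * u := by positivity
  have hu0 : (0 : ℝ) ≤ u := Nat.cast_nonneg _
  have haR : a * (3 * u + 1) = ℓ / 8 := by rw [ha]; field_simp
  obtain ⟨R, hR⟩ : ∃ R : ℝ, R = Real.exp (ℓ / 8) := ⟨_, rfl⟩
  have hR1 : 112 ≤ R := by
    rw [hR]; have := Real.add_one_le_exp (ℓ / 8); linarith
  have hR0 : 0 < R := by linarith
  have hRi : 1 / R = Real.exp (-(ℓ / 8)) := by rw [hR, Real.exp_neg, one_div]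
  have hR4 : R ^ 4 = Real.exp (ℓ / 2) := by
    rw [hR, ← Real.exp_nat_mul]; congr 1; push_cast; ring
  have hR8 : R ^ 8 = n := by
    rw [hR, ← Real.exp_nat_mul, ← hℓ]; congr 1; push_cast; ring
  have bnd : ∀ z : ℤ, -(3 * u + 1) ≤ z → z ≤ 3 * u + 1 →
      1 / R ≤ Real.exp (a * z) ∧ Real.exp (a * z) ≤ R := by
    intro z z1 z2
    have z1' : -(3 * (u : ℝ) + 1) ≤ z := by exact_mod_cast z1
    have z2' : (z : ℝ) ≤ 3 * (u : ℝ) + 1 := by exact_mod_cast z2
    rw [hRi, hR, Real.exp_le_exp, Real.exp_le_exp, ← haR]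
    constructor <;> nlinarith
  have bθ : ∀ j, 1 / R ≤ Real.exp (-(a * ww (3 * u) j)) ∧ Real.exp (-(a * ww (3 * u) j)) ≤ R := by
    intro j
    have := bnd (-ww (3 * u) j) (by rcases ww_cases (3 * u) j with h | h <;> omega)
      (by rcases ww_cases (3 * u) j with h | h <;> omega)
    simpa using this
  have bP : ∀ j, 1 / R ≤ Real.exp (a * ch (3 * u) j) ∧ Real.exp (a * ch (3 * u) j) ≤ R :=
    fun j => bnd _ (by have := ch_bound hp j; omega) (ch_bound hp j).2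
  have hR44 : 112 ≤ R ^ 4 := le_trans hR1 (by
    simpa using pow_le_pow_right₀ (show 1 ≤ R by linarith) (show 1 ≤ 4 by norm_num))
  have hn4 : (n : ℝ) = R ^ 4 * R ^ 4 := by rw [← hR8]; ring
  have hn0 : (0 : ℝ) < n := by rw [← hR8]; positivity
  have hs := survival (n := n) (θ := fun j => Real.exp (-(a * ww (3 * u) j)))
    (P := fun j => Real.exp (a * ch (3 * u) j)) (R := R) (by linarith) (fun j => (bθ j).1)
    (fun j => (bθ j).2) (fun j => (bP j).1) (fun j => (bP j).2) (by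
      intro j
      rw [← Real.exp_add, ch_succ]; congr 1; push_cast; ring) (by rw [hn4]; nlinarith) n 1
  refine le_trans ?_ hs
  rw [mul_assoc]
  refine mul_le_mul_of_nonneg_left ?_ (Zt_pos (fun j => Real.exp_pos _) n n).le
  rw [Real.exp_sub, hℓ, div_eq_mul_one_div]
  obtain ⟨η, hη⟩ : ∃ η : ℝ, η = 56 * R ^ 4 / n := ⟨_, rfl⟩
  rw [← hη]
  have η0 : 0 ≤ η := by rw [hη]; positivity
  have η1 : η ≤ 1 / 2 := by rw [hη, div_le_iff₀ hn0, hn4]; nlinarith
  have a1 : Real.exp (-(2 * η)) ≤ 1 - η := by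
    rw [Real.exp_neg, inv_le_comm₀ (Real.exp_pos _) (by linarith)]
    refine le_trans ?_ (Real.add_one_le_exp _)
    rw [inv_le_iff_one_le_mul₀ (by linarith)]
    nlinarith
  have a2 : Real.exp (-(112 * Real.exp (ℓ / 2))) ≤ (1 - η) ^ n := by
    refine le_trans (le_of_eq ?_) (pow_le_pow_left₀ (Real.exp_pos _).le a1 n)
    rw [← Real.exp_nat_mul, ← hR4, hη]
    congr 1
    field_simp
    ring
  refine mul_le_mul a2 ?_ (by positivity) (pow_nonneg (by linarith) _)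
  obtain ⟨P, hP⟩ : ∃ P : ℝ, P = Real.exp (a * ch (3 * u) n) := ⟨_, rfl⟩
  have b1 := (bP n).1
  have b2 := (bP n).2
  rw [← hP] at b1 b2 ⊢
  have P0 : 0 < P := by rw [hP]; positivity
  have X0 : 0 < n / (6 * R ^ 2) := by positivity
  have b3 : 1 ≤ R * P := by rwa [div_le_iff₀' hR0] at b1
  have hpar := par_ge (y := ((1 : ℕ) : ℝ) / P) X0 (by positivity) (by
    have c1 : ((1 : ℕ) : ℝ) / P ≤ R := by rw [div_le_iff₀ P0]; simpa using b3
    refine c1.trans ?_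
    rw [← hR8, show 3 * (R ^ 8 / (6 * R ^ 2)) / 2 = R * (R * R ^ 4 / 4) by field_simp; ring]
    apply le_mul_of_one_le_right hR0.le
    nlinarith)
  have c2 : 2 * (1 / (n : ℝ)) ≤ ((1 : ℕ) : ℝ) / P / (n / (6 * R ^ 2)) := by
    rw [Nat.cast_one, show 1 / P / (n / (6 * R ^ 2)) = (6 * R ^ 2 / P) * (1 / n) by field_simp]
    apply mul_le_mul_of_nonneg_right _ (by positivity)
    rw [le_div_iff₀ P0]
    nlinarith
  linarith

theorem lower_all (K : Type u) [Field K] (hn1 : Real.exp 115200 ≤ n) (hn2 : 3843 * 3843 ≤ n)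
    (Γ : Circuit K (Fin n × Fin n × Fin n)) (hΓ : Γ.Homogeneous) (hout : Γ.out = IMM K n n) :
    (n : ℝ) ^ (1 / 1024 * √n) ≤ Γ.size := by
  have hn : 0 < n := by omega
  have hn0 : (0 : ℝ) < n := by exact_mod_cast hn
  obtain ⟨u, hu⟩ : ∃ u, u = n.sqrt / 3 := ⟨_, rfl⟩
  have y1 : n.sqrt * n.sqrt ≤ n := Nat.sqrt_le n
  have y2 : n < (n.sqrt + 1) * (n.sqrt + 1) := Nat.lt_succ_sqrt n
  have y3 : 3843 ≤ n.sqrt := Nat.le_sqrt.2 hn2
  have u1 : 1280 ≤ u := by omega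
  have u2 : 3 * u ≤ n.sqrt := by omega
  have u3 : n.sqrt + 1 ≤ 4 * u := by omega
  have u4 : 8 * (u * u) ≤ n := by nlinarith
  have u5 : √n ≤ 4 * u := by
    rw [Real.sqrt_le_left (by positivity)]
    have : n ≤ (4 * u) ^ 2 := by nlinarith
    exact_mod_cast this
  obtain ⟨ℓ, hℓ⟩ : ∃ ℓ, ℓ = Real.log n := ⟨_, rfl⟩
  have hexp : Real.exp ℓ = n := by rw [hℓ, Real.exp_log hn0]
  have hl : 115200 ≤ ℓ := by rw [← hexp, Real.exp_le_exp] at hn1; exact hn1
  have hsq : Real.exp (ℓ / 2) = √n := by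
    rw [← hexp, Real.exp_half]
  have h1 := surv_final (n := n) u hexp hl
  have h2 := core K hn u (by omega) u4 (a := ℓ / (8 * (3 * u + 1))) (by positivity) Γ hΓ hout
  have h3 := h1.trans h2
  have hZ := Zt_pos (θ := fun j => Real.exp (-(ℓ / (8 * (3 * u + 1)) * ww (3 * u) j)))
    (fun j => Real.exp_pos _) n n
  rw [mul_comm, ← mul_assoc, mul_le_mul_iff_left₀ hZ, hsq] at h3
  have uR : (1280 : ℝ) ≤ u := by exact_mod_cast u1
  have b1 : (2 * (n * (n * (3 * u + 1))) + 1 : ℝ) ≤ Real.exp (4 * ℓ) := by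
    have : Real.exp (4 * ℓ) = (n : ℝ) ^ 4 := by
      rw [← hexp, ← Real.exp_nat_mul]; norm_num
    rw [this]
    have c1 : 2 * (n * (n * (3 * u + 1))) + 1 ≤ n ^ 4 := by
      have c2 : 3 * u + 1 ≤ n := by nlinarith
      have c3 : n * (n * (3 * u + 1)) ≤ n * (n * n) := by gcongr
      have c4 : 1 ≤ n * (n * n) := Nat.succ_le_of_lt (by positivity)
      calc _ ≤ 3 * (n * (n * n)) := by omega
        _ ≤ n * (n * (n * n)) := Nat.mul_le_mul_right _ (by omega)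
        _ = _ := by ring
    exact_mod_cast c1
  have b2 : (2 : ℝ) ^ (2 * u) ≤ Real.exp (2 * u) := by
    have : Real.exp (2 * u) = Real.exp 1 ^ (2 * u) := by
      rw [← Real.exp_nat_mul]; push_cast; ring_nf
    rw [this]
    apply pow_le_pow_left₀ (by norm_num)
    have := Real.add_one_le_exp 1
    linarith
  have b3 : Real.exp (ℓ / (8 * (3 * u + 1)) * (3 * u - u * u)) ≤ Real.exp (-(ℓ * u / 64)) := by
    rw [Real.exp_le_exp, div_mul_eq_mul_div, div_le_iff₀ (by positivity)]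
    have c1 : 0 ≤ ℓ * u := by positivity
    nlinarith [mul_nonneg c1 (show (0 : ℝ) ≤ u - 5 by linarith)]
  have h4 : Real.exp (-(112 * √n) - ℓ) ≤
      (Γ.size : ℝ) ^ 2 * Real.exp (4 * ℓ + 2 * u + -(ℓ * u / 64)) := by
    refine h3.trans ?_
    rw [Real.exp_add, Real.exp_add]
    calc _ ≤ Real.exp (4 * ℓ) * ((Γ.size : ℝ) ^ 2 * Real.exp (2 * u) *
          Real.exp (-(ℓ * u / 64))) := by gcongr
      _ = _ := by ring
  rw [← div_le_iff₀ (Real.exp_pos _), ← Real.exp_sub] at h4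
  rw [Real.rpow_def_of_pos hn0, ← hℓ]
  refine (pow_le_pow_iff_left₀ (Real.exp_pos _).le (Nat.cast_nonneg _) two_ne_zero).1 ?_
  refine le_trans ?_ h4
  rw [← Real.exp_nat_mul, Real.exp_le_exp]
  push_cast
  have c1 : ℓ * √n ≤ ℓ * (4 * u) := mul_le_mul_of_nonneg_left u5 (by linarith)
  nlinarith [mul_nonneg (sub_nonneg.2 hl) (show (0 : ℝ) ≤ u by linarith),
    mul_nonneg (sub_nonneg.2 uR) (show (0 : ℝ) ≤ ℓ by linarith)]

theorem s_lower_all (K : Type u) [Field K] (hn : ⌈Real.exp 115200⌉₊ + 3843 * 3843 ≤ n) :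
    (n : ℝ) ^ (1 / 1024 * √n) ≤ s K n := by
  obtain ⟨Γ, h1, h2, h3⟩ := s_mem K (n := n) (by omega)
  rw [← h3]
  refine lower_all K ?_ (by omega) Γ h1 h2
  exact (Nat.le_ceil _).trans (Nat.cast_le.2 (le_trans (Nat.le_add_right _ _) hn))

end Vale.Agent.P346.AF
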