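import Vale.Agent.P346.AFRank

/-! Leading monomials: lower bound for the rank of the projected polynomial. -/

namespace Vale.Agent.P346.AF
open Finset MvPolynomial

universe u
variable {L : Type u} [Field L] {n : ℕ}

/-- the projected iterated product -/
noncomputable def FF (G : Fin n → Fin n → L) : ℕ → Fin n → MvPolynomial (ℕ × Fin n) L
  | 0, _ => 1
  | m + 1, t => ∑ s, C (G t s) * X (m, s) * FF G m s

/-- every linear system supported on a square minor is solvable -/
def Super (G : Fin n → Fin n → L) : Prop :=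
  ∀ (T Cs : Finset (Fin n)) (s : Fin n), s ∈ Cs → Cs.card ≤ T.card →
    ∃ c : Fin n → L, (∀ t, t ∉ T → c t = 0) ∧
      ∀ s' ∈ Cs, ∑ t, c t * G t s' = if s' = s then 1 else 0

noncomputable def key : (ℕ × Fin n →₀ ℕ) →+ ℕ :=
  Finsupp.weight (fun v => v.2.val * (n * n + 1) ^ v.1)

lemma key_single (j : ℕ) (s : Fin n) :
    key (Finsupp.single (j, s) 1) = s.val * (n * n + 1) ^ j := by
  simp [key, Finsupp.weight_single]

lemma key_indL_le (j : ℕ) (V : Finset (Fin n)) : key (indL j V) ≤ n * n * (n * n + 1) ^ j := by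
  unfold indL
  rw [map_sum]
  simp only [key_single]
  refine le_trans (sum_le_card_nsmul V _ (n * (n * n + 1) ^ j) (fun s _ => ?_)) ?_
  · exact Nat.mul_le_mul_right _ s.2.le
  · have : V.card ≤ n := by simpa using card_le_univ V
    rw [smul_eq_mul, mul_assoc]
    exact Nat.mul_le_mul_right _ this

lemma key_ind_lt : ∀ (m : ℕ) (U : Fin m → Finset (Fin n)), key (ind U) < (n * n + 1) ^ m
  | 0, U => by simp [ind]
  | m + 1, U => by
    rw [ind_succ, map_add, pow_succ]
    have h1 := key_ind_lt m (Fin.init U)
    have h2 := key_indL_le m (U (Fin.last m))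
    nlinarith

lemma indL_erase (j : ℕ) {V : Finset (Fin n)} {s : Fin n} (hs : s ∈ V) :
    Finsupp.single (j, s) 1 + indL j (V.erase s) = indL j V := by
  unfold indL
  rw [add_sum_erase V (fun s => Finsupp.single (j, s) 1) hs]

def chi (w : ℕ → ℤ) (m : ℕ) : ℤ := ∑ j ∈ range m, w j

def Big (k : ℕ) (a : ℕ × Fin n →₀ ℕ) : Prop := (∃ v, 2 ≤ a v) ∨ k < key a

theorem lead (G : Fin n → Fin n → L) (hG : Super G) (w : ℕ → ℤ) :
    ∀ (m δ : ℕ) (U : Fin m → Finset (Fin n)), Good m δ U → ∀ T : Finset (Fin n), δ ≤ T.card →
      ∃ g : Fin n → MvPolynomial (ℕ × Fin n) L, (∀ t, t ∉ T → g t = 0) ∧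
        (∀ t, AllM (g t) (fun a => wt w a = wt w (ind U) - chi w m)) ∧
        AllM (∑ t, FF G m t * g t - monomial (ind U) 1) (Big (key (ind U))) := by
  intro m
  induction m with
  | zero =>
    intro δ U hU T hT
    have : T.Nonempty := card_pos.1 (lt_of_lt_of_le hU hT)
    obtain ⟨t0, ht0⟩ := this
    refine ⟨fun t => if t = t0 then 1 else 0,
      fun t ht => if_neg (fun h => ht (by rw [h]; exact ht0)), ?_, ?_⟩
    · intro t
      beta_reduce
      split_ifs
      · intro a ha
        rw [allM_monomial 0 (1 : L) a ha]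
        simp [ind, chi]
      · exact allM_zero _
    · have : ind U = 0 := by simp [ind]
      rw [this]
      simp only [FF, one_mul, sum_ite_eq', mem_univ, if_true]
      rw [show (monomial 0 1 : MvPolynomial (ℕ × Fin n) L) = 1 from rfl, sub_self]
      exact allM_zero _
  | succ m ih =>
    intro δ U hU T hT
    obtain ⟨V, hV⟩ : ∃ V, V = U (Fin.last m) := ⟨_, rfl⟩
    obtain ⟨U', hU'⟩ : ∃ U', U' = Fin.init U := ⟨_, rfl⟩
    have hind : ind U = ind U' + indL m V := by rw [hU', hV, ind_succ]
    have hU2 : Good m (Fc univ δ V) U' := by rw [hU', hV]; exact hU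
    obtain ⟨h, h0, h1, h2⟩ := ih _ U' hU2 (Tset univ δ V) le_rfl
    have hc : ∀ s : Fin n, ∃ c : Fin n → L, (∀ t, t ∉ T → c t = 0) ∧ (s ∈ Tset univ δ V →
        ∀ s' ∈ insert s ((univ \ V).filter (· < s)),
          ∑ t, c t * G t s' = if s' = s then 1 else 0) := by
      intro s
      by_cases hs : s ∈ Tset univ δ V
      · obtain ⟨c, c1, c2⟩ := hG T (insert s ((univ \ V).filter (· < s))) s (mem_insert_self _ _)
          (by
            have := (mem_filter.1 hs).2
            exact le_trans (card_insert_le _ _) (by omega))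
        exact ⟨c, c1, fun _ => c2⟩
      · exact ⟨0, fun _ _ => rfl, fun h => absurd h hs⟩
    choose c c1 c2 using hc
    have hsub : ∀ s ∈ Tset univ δ V, s ∈ V := fun s hs => (mem_filter.1 hs).1
    refine ⟨fun t => ∑ s ∈ Tset univ δ V, C (c s t) * (monomial (indL m (V.erase s)) 1 * h s),
      ?_, ?_, ?_⟩
    · intro t ht
      exact sum_eq_zero (fun s _ => by rw [c1 s t ht, C_0, zero_mul])
    · intro t
      refine allM_sum _ _ (fun s hs => allM_C_mul _ ?_)
      refine AllM.mul (allM_monomial _ _) (h1 s) (fun a b ha hb => ?_)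
      have e := congrArg (wt w) (indL_erase m (hsub s hs))
      rw [map_add, wt_single] at e
      rw [map_add, ha, hb, hind, map_add, ← e, chi, chi, sum_range_succ]
      ring
    · have e1 : ∑ t, FF G (m + 1) t *
          ∑ s ∈ Tset univ δ V, C (c s t) * (monomial (indL m (V.erase s)) 1 * h s) =
          ∑ s ∈ Tset univ δ V, ∑ s', C (∑ t, c s t * G t s') *
            (monomial (Finsupp.single (m, s') 1 + indL m (V.erase s)) 1 * (FF G m s' * h s)) := by
        simp only [FF, map_sum, sum_mul, mul_sum]
        rw [sum_comm]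
        refine sum_congr rfl (fun s _ => ?_)
        rw [sum_comm]
        refine sum_congr rfl (fun s' _ => sum_congr rfl (fun t _ => ?_))
        have e : (monomial (Finsupp.single (m, s') 1 + indL m (V.erase s)) 1 :
            MvPolynomial (ℕ × Fin n) L) = X (m, s') * monomial (indL m (V.erase s)) 1 := by
          rw [X, monomial_mul, one_mul]
        rw [e, C_mul]
        ring
      have e2 : ∀ s ∈ Tset univ δ V, ∑ s', C (∑ t, c s t * G t s') *
            (monomial (Finsupp.single (m, s') 1 + indL m (V.erase s)) 1 * (FF G m s' * h s)) =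
          monomial (indL m V) 1 * (FF G m s * h s) + ∑ s' ∈ univ.erase s, C (∑ t, c s t * G t s') *
            (monomial (Finsupp.single (m, s') 1 + indL m (V.erase s)) 1 * (FF G m s' * h s)) := by
        intro s hs
        rw [← add_sum_erase univ _ (mem_univ s), c2 s hs s (mem_insert_self _ _), if_pos rfl,
          C_1, one_mul, indL_erase m (hsub s hs)]
      have e3 : ∑ s ∈ Tset univ δ V, monomial (indL m V) 1 * (FF G m s * h s) =
          monomial (indL m V) 1 * ∑ s, FF G m s * h s := by
        rw [mul_sum]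
        exact sum_subset (subset_univ _) (fun s _ hs => by rw [h0 s hs, mul_zero, mul_zero])
      have e4 : (monomial (ind U) 1 : MvPolynomial (ℕ × Fin n) L) =
          monomial (indL m V) 1 * monomial (ind U') 1 := by
        rw [monomial_mul, one_mul, hind, add_comm]
      rw [e1, sum_congr rfl e2, sum_add_distrib, e3, e4, add_sub_right_comm, ← mul_sub]
      refine allM_add ?_ (allM_sum _ _ (fun s hs => allM_sum _ _ (fun s' hs' => ?_)))
      · refine AllM.mul (allM_monomial _ _) h2 (fun a b ha hb => ?_)
        rcases hb with ⟨v, hv⟩ | hb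
        · exact Or.inl ⟨v, by rw [Finsupp.add_apply]; omega⟩
        · right
          rw [hind, map_add, map_add, ha]; omega
      · have hne : s' ≠ s := (mem_erase.1 hs').1
        by_cases hs'V : s' ∈ V
        · refine allM_C_mul _ (AllM.mul (allM_monomial _ _) (allM_true _) (fun a b ha _ => ?_))
          refine Or.inl ⟨(m, s'), ?_⟩
          rw [ha, Finsupp.add_apply, Finsupp.add_apply, indL_apply,
            if_pos ⟨rfl, mem_erase.2 ⟨hne, hs'V⟩⟩, Finsupp.single_eq_same]
          omega
        · rcases lt_or_gt_of_ne hne with hlt | hlt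
          · rw [c2 s hs s' (mem_insert_of_mem (by simp [hs'V, hlt])), if_neg hne, C_0, zero_mul]
            exact allM_zero _
          · refine allM_C_mul _ (AllM.mul (allM_monomial _ _) (allM_true _) (fun a b ha _ => ?_))
            right
            have e := congrArg key (indL_erase m (hsub s hs))
            rw [map_add, key_single] at e
            rw [ha, hind, map_add, map_add, map_add, key_single, ← e]
            have k1 := key_ind_lt m U'
            have k2 : s.val + 1 ≤ s'.val := hlt
            have k3 := Nat.mul_le_mul_right ((n * n + 1) ^ m) k2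
            nlinarith

open Classical in
theorem mu_lower (G : Fin n → Fin n → L) (hG : Super G) (w : ℕ → ℤ) (ω : ℤ) (t0 : Fin n) :
    (univ.filter (fun U : Fin n → Finset (Fin n) => Good n 1 U ∧ wt w (ind U) = ω)).card ≤
      mu w ω (ω - chi w n) (FF G n t0) := by
  obtain ⟨A, hA⟩ : ∃ A, A = univ.filter
    (fun U : Fin n → Finset (Fin n) => Good n 1 U ∧ wt w (ind U) = ω) := ⟨_, rfl⟩
  rw [← hA]
  have hex : ∀ U : A, ∃ v : (Fin n → Finset (Fin n)) → L,
      v ∈ (Dom L n w (ω - chi w n)).map (piw L w ω ∘ₗ LinearMap.mulLeft L (FF G n t0)) ∧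
      v U = 1 ∧ ∀ U', v U' ≠ 0 → U' = U ∨ key (ind U.1) < key (ind U') := by
    rintro ⟨U, hU⟩
    rw [hA, mem_filter] at hU
    obtain ⟨g, g0, g1, g2⟩ := lead G hG w n 1 U hU.2.1 {t0} (by simp)
    rw [sum_eq_single t0 (fun t _ ht => by rw [g0 t (by simpa using ht), mul_zero])
      (by simp)] at g2
    have hc : ∀ U' : Fin n → Finset (Fin n), ¬ key (ind U) < key (ind U') →
        coeff (ind U') (FF G n t0 * g t0) = if U' = U then 1 else 0 := by
      intro U' hk
      have : coeff (ind U') (FF G n t0 * g t0 - monomial (ind U) 1) = 0 := by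
        by_contra h3
        rcases g2 _ (mem_support_iff.2 h3) with ⟨v, hv⟩ | h4
        · have := ind_le_one U' v; omega
        · exact hk h4
      rw [coeff_sub, sub_eq_zero, coeff_monomial] at this
      rw [this]
      by_cases h5 : U' = U
      · simp [h5]
      · rw [if_neg h5, if_neg (fun h6 => h5 (ind_inj h6).symm)]
    refine ⟨piw L w ω (FF G n t0 * g t0), ⟨g t0, ?_, rfl⟩, ?_, ?_⟩
    · have := g1 t0
      rw [hU.2.2] at this
      exact this
    · rw [piw_apply, if_pos hU.2.2, hc U (lt_irrefl _), if_pos rfl]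
    · intro U' hv
      by_contra h7
      push Not at h7
      rw [piw_apply, hc U' (not_lt.2 h7.2), if_neg h7.1] at hv
      simp at hv
  choose v v1 v2 v3 using hex
  have li : LinearIndependent L v := by
    rw [Fintype.linearIndependent_iff]
    intro a ha
    by_contra hne
    push Not at hne
    obtain ⟨U0, hU0, hmin⟩ := exists_min_image (univ.filter (fun U : A => a U ≠ 0))
      (fun U => key (ind U.1)) (by
        obtain ⟨U, hU⟩ := hne
        exact ⟨U, by simpa using hU⟩)
    have h1 := congrFun ha U0
    rw [Finset.sum_apply, sum_eq_single U0] at h1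
    · simp only [Pi.smul_apply, v2, smul_eq_mul, mul_one, Pi.zero_apply] at h1
      exact (mem_filter.1 hU0).2 h1
    · intro U _ hU
      simp only [Pi.smul_apply, smul_eq_mul]
      by_contra h2
      have h3 := left_ne_zero_of_mul h2
      rcases v3 U U0 (right_ne_zero_of_mul h2) with h4 | h4
      · exact hU (Subtype.ext h4.symm)
      · have := hmin U (by simpa using h3)
        omega
    · simp
  have h1 := finrank_span_eq_card li
  rw [Fintype.card_coe] at h1
  rw [← h1]
  apply Submodule.finrank_mono
  rw [Submodule.span_le]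
  rintro _ ⟨U, rfl⟩
  exact v1 U

end Vale.Agent.P346.AF
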