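import Mathlib

/-! Capped geometric branching: one layer moments and the survival estimate. -/

namespace Vale.Agent.P346.AF
open Finset

section Layer
variable {α : Type*} [LinearOrder α]

/-- occupied sites with fewer than `δ` holes before them -/
def Tset (S : Finset α) (δ : ℕ) (V : Finset α) : Finset α :=
  V.filter (fun t => ((S \ V).filter (· < t)).card < δ)

def Fc (S : Finset α) (δ : ℕ) (V : Finset α) : ℕ := (Tset S δ V).card

lemma Fc_zero (S V : Finset α) : Fc S 0 V = 0 := by simp [Fc, Tset]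

lemma Fc_mono (S V : Finset α) {δ δ' : ℕ} (h : δ ≤ δ') : Fc S δ V ≤ Fc S δ' V := by
  unfold Fc Tset
  apply card_le_card
  intro t ht
  simp only [mem_filter] at ht ⊢
  exact ⟨ht.1, lt_of_lt_of_le ht.2 h⟩

lemma Fc_out {S V : Finset α} {a : α} (ha : ∀ x ∈ S, a < x) (hV : V ⊆ S) (δ : ℕ) :
    Fc (insert a S) (δ + 1) V = Fc S δ V := by
  unfold Fc Tset
  congr 1
  apply filter_congr
  intro t ht
  have haS : a ∉ S := fun h => lt_irrefl _ (ha a h)
  have haV : a ∉ V := fun h => haS (hV h)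
  have : ((insert a S \ V).filter (· < t)) = insert a ((S \ V).filter (· < t)) := by
    ext x
    simp only [mem_filter, mem_sdiff, mem_insert]
    constructor
    · rintro ⟨⟨h | h, h2⟩, h3⟩
      · exact Or.inl h
      · exact Or.inr ⟨⟨h, h2⟩, h3⟩
    · rintro (h | ⟨⟨h, h2⟩, h3⟩)
      · subst h; exact ⟨⟨Or.inl rfl, haV⟩, ha t (hV ht)⟩
      · exact ⟨⟨Or.inr h, h2⟩, h3⟩
  rw [this, card_insert_of_notMem (by simp [haS])]
  omega

lemma Fc_in {S V : Finset α} {a : α} (ha : ∀ x ∈ S, a < x) (hV : V ⊆ S) (δ : ℕ) :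
    Fc (insert a S) (δ + 1) (insert a V) = Fc S (δ + 1) V + 1 := by
  unfold Fc Tset
  have haS : a ∉ S := fun h => lt_irrefl _ (ha a h)
  have haV : a ∉ V := fun h => haS (hV h)
  have h1 : insert a S \ insert a V = S \ V := by
    ext x
    simp only [mem_sdiff, mem_insert, not_or]
    constructor
    · rintro ⟨h | h, h2, h3⟩
      · exact absurd h h2
      · exact ⟨h, h3⟩
    · rintro ⟨h, h2⟩
      exact ⟨Or.inr h, fun e => haS (e ▸ h), h2⟩
  rw [h1, filter_insert, if_pos, card_insert_of_notMem (by simp [haV])]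
  have : (S \ V).filter (· < a) = ∅ := by
    apply filter_eq_empty_iff.mpr
    intro x hx
    exact not_lt.mpr (ha x (mem_sdiff.mp hx).1).le
  simp [this]

noncomputable def m1 (θ : ℝ) : ℕ → ℕ → ℝ
  | 0, _ => 0
  | _ + 1, 0 => 0
  | w + 1, δ + 1 => (m1 θ w δ + θ * (1 + m1 θ w (δ + 1))) / (1 + θ)

noncomputable def m2 (θ : ℝ) : ℕ → ℕ → ℝ
  | 0, _ => 0
  | _ + 1, 0 => 0
  | w + 1, δ + 1 => (m2 θ w δ + θ * (1 + 2 * m1 θ w (δ + 1) + m2 θ w (δ + 1))) / (1 + θ)

lemma m1_zero (θ : ℝ) (w : ℕ) : m1 θ w 0 = 0 := by cases w <;> simp [m1]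
lemma m2_zero (θ : ℝ) (w : ℕ) : m2 θ w 0 = 0 := by cases w <;> simp [m2]

lemma sum_ge {θ : ℝ} (hθ : 0 < θ) (S : Finset α) :
    ∀ (δ : ℕ) (γ a β : ℝ) (h : ℕ → ℝ), (∀ x : ℕ, γ + a * x - β * (x : ℝ) ^ 2 ≤ h x) →
      (1 + θ) ^ S.card * (γ + a * m1 θ S.card δ - β * m2 θ S.card δ) ≤
        ∑ V ∈ S.powerset, θ ^ V.card * h (Fc S δ V) := by
  induction S using Finset.induction_on_min with
  | empty =>
    intro δ γ a β h hh
    have := hh 0
    simp [m1, m2, Fc, Tset] at this ⊢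
    exact this
  | insert x S hx ih =>
    intro δ γ a β h hh
    have hxS : x ∉ S := fun h => lt_irrefl _ (hx x h)
    rw [sum_powerset_insert hxS, card_insert_of_notMem hxS]
    have hc : ∀ V ∈ S.powerset, (insert x V).card = V.card + 1 := fun V hV =>
      card_insert_of_notMem (fun h => hxS (mem_powerset.mp hV h))
    have h1 : (0 : ℝ) < 1 + θ := by linarith
    cases δ with
    | zero =>
      have e2 : ∑ V ∈ S.powerset, θ ^ (insert x V).card * h (Fc (insert x S) 0 (insert x V)) =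
          θ * ∑ V ∈ S.powerset, θ ^ V.card * h (Fc S 0 V) := by
        rw [mul_sum]
        apply sum_congr rfl
        intro V hV
        rw [hc V hV, Fc_zero, Fc_zero]; ring
      have e1 : ∑ V ∈ S.powerset, θ ^ V.card * h (Fc (insert x S) 0 V) =
          ∑ V ∈ S.powerset, θ ^ V.card * h (Fc S 0 V) := by
        apply sum_congr rfl
        intro V hV
        rw [Fc_zero, Fc_zero]
      rw [e1, e2]
      have := ih 0 γ a β h hh
      rw [m1_zero, m2_zero] at this ⊢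
      have := mul_le_mul_of_nonneg_left this h1.le
      calc _ = (1 + θ) * ((1 + θ) ^ S.card * (γ + a * 0 - β * 0)) := by ring
        _ ≤ _ := this
        _ = _ := by ring
    | succ δ =>
      have e2 : ∑ V ∈ S.powerset,
          θ ^ (insert x V).card * h (Fc (insert x S) (δ + 1) (insert x V)) =
          θ * ∑ V ∈ S.powerset, θ ^ V.card * (fun y => h (y + 1)) (Fc S (δ + 1) V) := by
        rw [mul_sum]
        apply sum_congr rfl
        intro V hV
        rw [hc V hV, Fc_in hx (mem_powerset.mp hV)]; ring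
      have e1 : ∑ V ∈ S.powerset, θ ^ V.card * h (Fc (insert x S) (δ + 1) V) =
          ∑ V ∈ S.powerset, θ ^ V.card * h (Fc S δ V) := by
        apply sum_congr rfl
        intro V hV
        rw [Fc_out hx (mem_powerset.mp hV)]
      rw [e1, e2]
      have i1 := ih δ γ a β h hh
      have i2 := ih (δ + 1) (γ + a - β) (a - 2 * β) β (fun y => h (y + 1)) (by
        intro y
        have := hh (y + 1)
        push_cast at this
        nlinarith)
      have i3 := mul_le_mul_of_nonneg_left i2 hθ.le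
      refine le_trans (le_of_eq ?_) (add_le_add i1 i3)
      simp only [m1, m2]
      field_simp
      ring

lemma m1_le {θ : ℝ} (hθ : 0 < θ) : ∀ w δ : ℕ, m1 θ w δ ≤ θ * δ
  | 0, δ => by simp only [m1]; positivity
  | _ + 1, 0 => by simp [m1]
  | w + 1, δ + 1 => by
    have h1 := m1_le hθ w δ
    have h2 := m1_le hθ w (δ + 1)
    simp only [m1]
    rw [div_le_iff₀ (by linarith)]
    push_cast at *
    nlinarith

lemma m2_le {θ : ℝ} (hθ : 0 < θ) : ∀ w δ : ℕ, m2 θ w δ ≤ θ ^ 2 * (δ : ℝ) ^ 2 + θ * (1 + θ) * δ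
  | 0, δ => by simp only [m2]; positivity
  | _ + 1, 0 => by simp [m2]
  | w + 1, δ + 1 => by
    have h1 := m2_le hθ w δ
    have h2 := m2_le hθ w (δ + 1)
    have h3 := m1_le hθ w (δ + 1)
    simp only [m2]
    rw [div_le_iff₀ (by linarith)]
    push_cast at *
    nlinarith [mul_le_mul_of_nonneg_left h2 hθ.le, mul_le_mul_of_nonneg_left h3 hθ.le]

lemma m1_ge {θ : ℝ} (hθ : 0 < θ) (c b : ℝ) (hc : 0 ≤ c) (δ0 : ℕ)
    (h0 : ∀ δ : ℕ, δ ≤ δ0 → θ * δ ≤ c * (δ + b) ^ 2) : ∀ w δ : ℕ, δ ≤ δ0 →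
    θ * δ - m1 θ w δ ≤ c * ((δ + b - w / (1 + θ)) ^ 2 + w * θ / (1 + θ) ^ 2)
  | 0, δ, hδ => by simpa [m1] using h0 δ hδ
  | _ + 1, 0, _ => by simp only [m1]; simp; positivity
  | w + 1, δ + 1, hδ => by
    have h1 := m1_ge hθ c b hc δ0 h0 w δ (by omega)
    have h2 := m1_ge hθ c b hc δ0 h0 w (δ + 1) hδ
    have hp : (0 : ℝ) < 1 + θ := by linarith
    simp only [m1]
    push_cast at *
    have h3 := mul_le_mul_of_nonneg_left h2 hθ.le
    have h4 := add_le_add h1 h3
    have e1 : θ * ((δ : ℝ) + 1) - (m1 θ w δ + θ * (1 + m1 θ w (δ + 1))) / (1 + θ) =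
        (θ * δ - m1 θ w δ + θ * (θ * (δ + 1) - m1 θ w (δ + 1))) / (1 + θ) := by
      field_simp; ring
    rw [e1, div_le_iff₀ hp]
    refine le_trans h4 (le_of_eq ?_)
    field_simp; ring

/-- the potential -/
noncomputable def par (X y : ℝ) : ℝ := y * (2 * X - y) / X ^ 2

lemma par_le_one {X : ℝ} (hX : 0 < X) (y : ℝ) : par X y ≤ 1 := by
  unfold par
  rw [div_le_one (by positivity)]
  nlinarith [sq_nonneg (X - y)]

lemma deficiency {θ : ℝ} (hθ : 0 < θ) (n δ : ℕ) (hn : 0 < n) (hδ : 2 * (1 + θ) * δ ≤ n) :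
    θ * δ - m1 θ n δ ≤ θ * δ * (4 * (1 + θ) / n) := by
  have hp : (0 : ℝ) < 1 + θ := by linarith
  have hw0 : (0 : ℝ) < n := by exact_mod_cast hn
  have hδ0 : (0 : ℝ) ≤ δ := Nat.cast_nonneg _
  obtain ⟨b, hb⟩ : ∃ b : ℝ, b = n / (1 + θ) - δ := ⟨_, rfl⟩
  have hb1 : n / (2 * (1 + θ)) ≤ b := by
    rw [hb, div_le_iff₀ (by positivity)]
    have : n / (1 + θ) * (1 + θ) = n := by field_simp
    nlinarith
  have hb0 : 0 < b := lt_of_lt_of_le (by positivity) hb1
  have hD := m1_ge hθ (θ * δ / b ^ 2) b (by positivity) δ (by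
    intro d hd
    have hd' : (d : ℝ) ≤ δ := by exact_mod_cast hd
    have hd0 : (0 : ℝ) ≤ d := Nat.cast_nonneg _
    rw [div_mul_eq_mul_div, le_div_iff₀ (by positivity)]
    have : b ^ 2 ≤ (d + b) ^ 2 := by nlinarith
    have h2 : θ * d ≤ θ * δ := by nlinarith
    calc θ * d * b ^ 2 ≤ θ * δ * b ^ 2 := by nlinarith
      _ ≤ _ := by apply mul_le_mul_of_nonneg_left this; positivity) n δ le_rfl
  have e0 : (δ : ℝ) + b - n / (1 + θ) = 0 := by rw [hb]; ring
  rw [e0] at hD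
  refine le_trans hD ?_
  have h3 : (n / (2 * (1 + θ))) ^ 2 ≤ b ^ 2 := by gcongr
  have h4 : θ * δ / b ^ 2 ≤ θ * δ / (n / (2 * (1 + θ))) ^ 2 := by gcongr
  have h5 : (0 : ℝ) ^ 2 + n * θ / (1 + θ) ^ 2 ≤ n / (1 + θ) := by
    rw [zero_pow two_ne_zero, zero_add, div_le_div_iff₀ (by positivity) hp]
    nlinarith [mul_pos hw0 hp]
  calc _ ≤ θ * δ / (n / (2 * (1 + θ))) ^ 2 * (n / (1 + θ)) := by gcongr
    _ = _ := by field_simp; ring

lemma par_ge {X y : ℝ} (hX : 0 < X) (hy0 : 0 ≤ y) (hy : y ≤ 3 * X / 2) :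
    y / X ≤ 2 * par X y := by
  unfold par
  rw [← mul_div_assoc, div_le_div_iff₀ hX (by positivity)]
  nlinarith [mul_nonneg (mul_nonneg hy0 hX.le) (sub_nonneg.mpr hy)]

lemma step_real {θ P X η w y M1 M2 : ℝ} (hθ : 0 < θ) (hP : 0 < P) (hX : 0 < X) (hw0 : 0 < w)
    (hy0 : 0 ≤ y) (hy : y ≤ 3 * X / 2)
    (hη : 16 * (1 + θ) / w + 2 * (1 + θ) / (θ * P * X) ≤ η)
    (hD2 : θ * (y * P) - M1 ≤ θ * (y * P) * (4 * (1 + θ) / w))
    (hM : M2 ≤ θ ^ 2 * (y * P) ^ 2 + θ * (1 + θ) * (y * P)) :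
    (1 - η) * par X y ≤ 2 / (X * P * θ) * M1 - 1 / (X * P * θ) ^ 2 * M2 := by
  have hpar := par_ge hX hy0 hy
  have hpar0 : 0 ≤ par X y := by
    have : 0 ≤ y / X := by positivity
    linarith
  have a1 : 2 / (X * P * θ) * (θ * (y * P) - θ * (y * P) * (4 * (1 + θ) / w)) ≤
      2 / (X * P * θ) * M1 := by
    apply mul_le_mul_of_nonneg_left _ (by positivity); linarith
  have a2 : 1 / (X * P * θ) ^ 2 * M2 ≤
      1 / (X * P * θ) ^ 2 * (θ ^ 2 * (y * P) ^ 2 + θ * (1 + θ) * (y * P)) := by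
    apply mul_le_mul_of_nonneg_left hM (by positivity)
  have a3 : 2 / (X * P * θ) * (θ * (y * P) - θ * (y * P) * (4 * (1 + θ) / w)) -
      1 / (X * P * θ) ^ 2 * (θ ^ 2 * (y * P) ^ 2 + θ * (1 + θ) * (y * P)) =
      par X y - y / X * (8 * (1 + θ) / w + (1 + θ) / (θ * P * X)) := by
    unfold par
    field_simp
    ring
  have a4 : y / X * (8 * (1 + θ) / w + (1 + θ) / (θ * P * X)) ≤ η * par X y := by
    have h8 : 0 ≤ 8 * (1 + θ) / w + (1 + θ) / (θ * P * X) := by positivity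
    have h9 : 16 * (1 + θ) / w + 2 * (1 + θ) / (θ * P * X) =
        2 * (8 * (1 + θ) / w + (1 + θ) / (θ * P * X)) := by ring
    calc _ ≤ 2 * par X y * (8 * (1 + θ) / w + (1 + θ) / (θ * P * X)) := by gcongr
      _ = (16 * (1 + θ) / w + 2 * (1 + θ) / (θ * P * X)) * par X y := by rw [h9]; ring
      _ ≤ _ := by gcongr
  have a6 : (1 - η) * par X y = par X y - η * par X y := by ring
  linarith

lemma step_small {θ P X η c0 : ℝ} (hθ : 0 < θ) (hP : 0 < P) (hX : 0 < X) (hc0 : 0 ≤ c0)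
    (S : Finset α) (hS : 0 < S.card) (δ : ℕ) (hy : δ / P ≤ 3 * X / 2)
    (hδ : 2 * (1 + θ) * δ ≤ S.card)
    (hη : 16 * (1 + θ) / S.card + 2 * (1 + θ) / (θ * P * X) ≤ η)
    (h : ℕ → ℝ) (hh : ∀ x : ℕ, c0 * par X (x / (P * θ)) ≤ h x) :
    (1 + θ) ^ S.card * (c0 * ((1 - η) * par X (δ / P))) ≤
      ∑ V ∈ S.powerset, θ ^ V.card * h (Fc S δ V) := by
  have hp : (0 : ℝ) < 1 + θ := by linarith
  have key := sum_ge hθ S δ 0 (c0 * (2 / (X * P * θ))) (c0 * (1 / (X * P * θ) ^ 2)) h (by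
    intro x
    refine le_trans (le_of_eq ?_) (hh x)
    unfold par
    field_simp
    ring)
  refine le_trans (mul_le_mul_of_nonneg_left ?_ (by positivity)) key
  have hδy : (δ : ℝ) / P * P = δ := by field_simp
  have a5 := step_real (y := δ / P) (M1 := m1 θ S.card δ) (M2 := m2 θ S.card δ) hθ hP hX
    (by exact_mod_cast hS) (by positivity) hy hη
    (by rw [hδy]; exact deficiency hθ _ _ hS hδ) (by rw [hδy]; exact m2_le hθ _ _)
  have := mul_le_mul_of_nonneg_left a5 hc0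
  calc _ ≤ _ := this
    _ = _ := by ring

end Layer

section Multi
variable {n : ℕ}

/-- survival of the process through the layers `m-1, ..., 0` -/
def Good : (m : ℕ) → ℕ → (Fin m → Finset (Fin n)) → Prop
  | 0, δ, _ => 1 ≤ δ
  | m + 1, δ, U => Good m (Fc univ δ (U (Fin.last m))) (Fin.init U)

lemma Good.mono : ∀ (m : ℕ) {δ δ' : ℕ} (_ : δ ≤ δ') (U : Fin m → Finset (Fin n)),
    Good m δ U → Good m δ' U
  | 0, _, _, h, _, hg => le_trans hg h
  | m + 1, _, _, h, U, hg => Good.mono m (Fc_mono _ _ h) (Fin.init U) hg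

/-- unnormalised product weight -/
noncomputable def W (θ : ℕ → ℝ) {m : ℕ} (U : Fin m → Finset (Fin n)) : ℝ :=
  ∏ j : Fin m, θ j ^ (U j).card

lemma sum_snoc (θ : ℕ → ℝ) (m : ℕ) (f : Finset (Fin n) → (Fin m → Finset (Fin n)) → ℝ) :
    ∑ U : Fin (m + 1) → Finset (Fin n), W θ U * f (U (Fin.last m)) (Fin.init U) =
      ∑ V : Finset (Fin n), θ m ^ V.card * ∑ U : Fin m → Finset (Fin n), W θ U * f V U := by
  rw [← (Fin.snocEquiv (fun _ : Fin (m + 1) => Finset (Fin n))).sum_comp, Fintype.sum_prod_type]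
  apply sum_congr rfl
  intro V _
  rw [mul_sum]
  apply sum_congr rfl
  intro U _
  have e : (Fin.snocEquiv fun _ : Fin (m + 1) => Finset (Fin n)) (V, U) = Fin.snoc U V := rfl
  rw [e]
  simp only [W, Fin.prod_univ_castSucc, Fin.snoc_last, Fin.snoc_castSucc,
    Fin.init_snoc, Fin.val_last, Fin.val_castSucc]
  ring

open Classical in
noncomputable def Sv (θ : ℕ → ℝ) (n m δ : ℕ) : ℝ :=
  ∑ U : Fin m → Finset (Fin n), W θ U * (if Good m δ U then 1 else 0)

noncomputable def Zt (θ : ℕ → ℝ) (n m : ℕ) : ℝ := ∑ U : Fin m → Finset (Fin n), W θ U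

lemma W_pos {θ : ℕ → ℝ} (hθ : ∀ j, 0 < θ j) {m : ℕ} (U : Fin m → Finset (Fin n)) : 0 < W θ U :=
  prod_pos (fun j _ => pow_pos (hθ j) _)

lemma Zt_pos {θ : ℕ → ℝ} (hθ : ∀ j, 0 < θ j) (n m : ℕ) : 0 < Zt θ n m :=
  sum_pos (fun U _ => W_pos hθ U) univ_nonempty

lemma Zt_succ (θ : ℕ → ℝ) (n m : ℕ) : Zt θ n (m + 1) = (1 + θ m) ^ n * Zt θ n m := by
  have := sum_snoc (n := n) θ m (fun _ _ => 1)
  simp only [mul_one] at this
  unfold Zt
  rw [this, ← sum_mul]
  congr 1
  have h2 := Finset.sum_pow_mul_eq_add_pow (θ m) 1 (univ : Finset (Fin n))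
  simp only [one_pow, mul_one, powerset_univ, card_univ, Fintype.card_fin] at h2
  rw [h2, add_comm]

lemma Sv_succ (θ : ℕ → ℝ) (n m δ : ℕ) : Sv θ n (m + 1) δ =
    ∑ V : Finset (Fin n), θ m ^ V.card * Sv θ n m (Fc univ δ V) := by
  classical
  have := sum_snoc (n := n) θ m (fun V U => if Good m (Fc univ δ V) U then 1 else 0)
  unfold Sv
  convert this using 3
  rfl

lemma Sv_mono {θ : ℕ → ℝ} (hθ : ∀ j, 0 < θ j) (n m : ℕ) {δ δ' : ℕ} (h : δ ≤ δ') :
    Sv θ n m δ ≤ Sv θ n m δ' := by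
  unfold Sv
  apply sum_le_sum
  intro U _
  apply mul_le_mul_of_nonneg_left _ (W_pos hθ U).le
  by_cases h1 : Good m δ U
  · rw [if_pos h1, if_pos (Good.mono m h U h1)]
  · rw [if_neg h1]; split_ifs <;> norm_num

theorem survival {θ P : ℕ → ℝ} {R : ℝ} (hR : 1 ≤ R) (hθ1 : ∀ j, 1 / R ≤ θ j) (hθ2 : ∀ j, θ j ≤ R)
    (hP1 : ∀ j, 1 / R ≤ P j) (hP2 : ∀ j, P j ≤ R) (hP : ∀ j, P j = P (j + 1) * θ j)
    (hn : 56 * R ^ 4 ≤ n) : ∀ (m δ : ℕ),
      Zt θ n m * (1 - 56 * R ^ 4 / n) ^ m * par (n / (6 * R ^ 2)) (δ / P m) ≤ Sv θ n m δ := by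
  have hR0 : 0 < R := by linarith
  have hθ : ∀ j, 0 < θ j := fun j => lt_of_lt_of_le (by positivity) (hθ1 j)
  have hPp : ∀ j, 0 < P j := fun j => lt_of_lt_of_le (by positivity) (hP1 j)
  have hR4 : 1 ≤ R ^ 4 := one_le_pow₀ hR
  have hn0 : (0 : ℝ) < n := by linarith
  set X : ℝ := n / (6 * R ^ 2) with hX
  have hX0 : 0 < X := by positivity
  set η : ℝ := 56 * R ^ 4 / n with hη
  have hη1 : 0 ≤ 1 - η := by rw [hη, sub_nonneg, div_le_one hn0]; exact hn
  intro m
  induction m with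
  | zero =>
    intro δ
    simp only [Zt, Sv, W, Good, Fintype.sum_unique, univ_eq_empty, prod_empty, pow_zero, one_mul]
    cases δ with
    | zero => simp [par]
    | succ d => simpa using par_le_one hX0 _
  | succ m ih =>
    have small : ∀ δ : ℕ, δ / P (m + 1) ≤ 3 * X / 2 →
        Zt θ n (m + 1) * (1 - η) ^ (m + 1) * par X (δ / P (m + 1)) ≤ Sv θ n (m + 1) δ := by
      intro δ hy
      have hc : (univ : Finset (Fin n)).card = n := by simp
      have h1 := hθ1 m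
      have h2 := hθ2 m
      have h3 := hP1 (m + 1)
      have h4 := hP2 (m + 1)
      have h5 := hθ m
      have h6 := hPp (m + 1)
      have := step_small (θ := θ m) (P := P (m + 1)) (X := X) (η := η)
        (c0 := Zt θ n m * (1 - η) ^ m) h5 h6 hX0
        (mul_nonneg (Zt_pos hθ n m).le (pow_nonneg hη1 m)) (univ : Finset (Fin n))
        (by rw [hc]; exact_mod_cast hn0) δ hy (by
          rw [hc]
          rw [div_le_iff₀ h6] at hy
          have a1 : (δ : ℝ) ≤ 3 * X / 2 * R := le_trans hy (by gcongr)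
          have a2 : 2 * (1 + θ m) ≤ 4 * R := by linarith
          calc 2 * (1 + θ m) * δ ≤ 4 * R * (3 * X / 2 * R) := by gcongr
            _ = n := by rw [hX]; field_simp; ring) (by
          rw [hc, hη]
          have a1 : 16 * (1 + θ m) / n ≤ 32 * R ^ 4 / n := by
            gcongr ?_ / _
            have : R ≤ R ^ 4 := by nlinarith [pow_le_pow_right₀ hR (show 1 ≤ 4 by norm_num)]
            linarith
          have a2 : 2 * (1 + θ m) / (θ m * P (m + 1) * X) ≤ 24 * R ^ 4 / n := by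
            rw [div_le_iff₀ (by positivity)]
            have b1 : 1 ≤ R * θ m := by rwa [div_le_iff₀' hR0] at h1
            have b2 : 1 ≤ R * P (m + 1) := by rwa [div_le_iff₀' hR0] at h3
            have b3 : 24 * R ^ 4 / n * (θ m * P (m + 1) * X) =
                4 * (R * θ m) * (R * P (m + 1)) := by rw [hX]; field_simp; ring
            rw [b3]
            have b4 : θ m ≤ R * θ m := by nlinarith
            nlinarith
          have a3 : 56 * R ^ 4 / (n : ℝ) = 32 * R ^ 4 / n + 24 * R ^ 4 / n := by ring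
          linarith) (Sv θ n m) (by
          intro x
          rw [← hP m]
          exact ih x)
      rw [Sv_succ, Zt_succ]
      rw [hc, powerset_univ] at this
      refine le_trans (le_of_eq ?_) this
      ring
    intro δ
    by_cases hy : δ / P (m + 1) ≤ 3 * X / 2
    · exact small δ hy
    · push Not at hy
      have h6 := hPp (m + 1)
      have h3 := hP1 (m + 1)
      set d : ℕ := ⌊X * P (m + 1)⌋₊ with hd
      have d1 : (d : ℝ) ≤ X * P (m + 1) := Nat.floor_le (by positivity)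
      have d2 : X * P (m + 1) < d + 1 := Nat.lt_floor_add_one _
      have d3 : d / P (m + 1) ≤ X := by rw [div_le_iff₀ h6]; exact d1
      have hRX : 2 * R ≤ X := by
        rw [hX, le_div_iff₀ (by positivity)]
        have : R ^ 3 ≤ R ^ 4 := pow_le_pow_right₀ hR (by norm_num)
        nlinarith
      have d4 : X / 2 ≤ d / P (m + 1) := by
        rw [le_div_iff₀ h6]
        have b2 : 1 ≤ R * P (m + 1) := by rwa [div_le_iff₀' hR0] at h3
        nlinarith
      have d5 : d ≤ δ := by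
        have : (d : ℝ) / P (m + 1) ≤ δ / P (m + 1) := by linarith
        rw [div_le_div_iff_of_pos_right h6] at this
        exact_mod_cast this
      refine le_trans ?_ (le_trans (small d (by linarith)) (Sv_mono hθ n (m + 1) d5))
      apply mul_le_mul_of_nonneg_left _ (mul_nonneg (Zt_pos hθ n _).le (pow_nonneg hη1 _))
      unfold par
      gcongr ?_ / _
      nlinarith

end Multi

end Vale.Agent.P346.AF
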