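import Vale.Agent.P346.Rank
import Vale.Agent.P346.AFProb

/-! The rank of multiplication in the algebra where squares of variables vanish. -/

namespace Vale.Agent.P346.AF
open Finset MvPolynomial

universe u

section AllMs
variable {K : Type u} [Field K] {X : Type}

lemma allM_zero (P : (X →₀ ℕ) → Prop) : AllM (0 : MvPolynomial X K) P := by
  intro m hm; simp at hm

lemma allM_add {g h : MvPolynomial X K} {P : (X →₀ ℕ) → Prop} (hg : AllM g P) (hh : AllM h P) :
    AllM (g + h) P := by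
  classical
  intro m hm
  rcases mem_union.1 (support_add hm) with h1 | h1
  · exact hg m h1
  · exact hh m h1

lemma allM_sum {ι : Type} (s : Finset ι) (f : ι → MvPolynomial X K) {P : (X →₀ ℕ) → Prop}
    (h : ∀ i ∈ s, AllM (f i) P) : AllM (∑ i ∈ s, f i) P := by
  classical
  intro m hm
  obtain ⟨i, hi, hm'⟩ := mem_biUnion.1 (support_sum hm)
  exact h i hi m hm'

lemma allM_monomial (a : X →₀ ℕ) (r : K) : AllM (monomial a r) (fun m => m = a) := by
  classical
  intro m hm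
  exact mem_singleton.1 (support_monomial_subset hm)

lemma allM_true (g : MvPolynomial X K) : AllM g (fun _ => True) := fun _ _ => trivial

lemma allM_C_mul {g : MvPolynomial X K} {P : (X →₀ ℕ) → Prop} (r : K) (hg : AllM g P) :
    AllM (C r * g) P :=
  AllM.mul (allM_monomial 0 r) hg (fun m m' h1 h2 => by rw [h1, zero_add]; exact h2)

end AllMs

variable {L : Type u} [Field L] {n : ℕ}

noncomputable def indL (j : ℕ) (V : Finset (Fin n)) : ℕ × Fin n →₀ ℕ :=
  ∑ s ∈ V, Finsupp.single (j, s) 1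

noncomputable def ind {m : ℕ} (U : Fin m → Finset (Fin n)) : ℕ × Fin n →₀ ℕ :=
  ∑ j : Fin m, indL j (U j)

lemma indL_apply (j : ℕ) (V : Finset (Fin n)) (i : ℕ) (s : Fin n) :
    indL j V (i, s) = if i = j ∧ s ∈ V then 1 else 0 := by
  unfold indL
  rw [Finsupp.finsetSum_apply]
  simp only [Finsupp.single_apply, Prod.mk.injEq]
  by_cases h : i = j
  · subst h; simp
  · rw [if_neg (fun h' => h h'.1)]
    exact sum_eq_zero (fun x _ => if_neg (fun h' => h h'.1.symm))

lemma ind_apply {m : ℕ} (U : Fin m → Finset (Fin n)) (i : ℕ) (s : Fin n) :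
    ind U (i, s) = if h : i < m then (if s ∈ U ⟨i, h⟩ then 1 else 0) else 0 := by
  unfold ind
  rw [Finsupp.finsetSum_apply]
  simp only [indL_apply]
  split_ifs with h h2
  · rw [sum_eq_single ⟨i, h⟩]
    · simp [h2]
    · intro b _ hb
      exact if_neg (fun h' => hb (Fin.ext h'.1.symm))
    · simp
  · refine sum_eq_zero (fun b _ => if_neg (fun h' => h2 ?_))
    have : b = ⟨i, h⟩ := Fin.ext h'.1.symm
    exact this ▸ h'.2
  · refine sum_eq_zero (fun b _ => if_neg (fun h' => h ?_))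
    rw [h'.1]; exact b.2

lemma ind_le_one {m : ℕ} (U : Fin m → Finset (Fin n)) (v : ℕ × Fin n) : ind U v ≤ 1 := by
  obtain ⟨i, s⟩ := v
  rw [ind_apply]; split_ifs <;> omega

lemma ind_inj {m : ℕ} {U U' : Fin m → Finset (Fin n)} (h : ind U = ind U') : U = U' := by
  ext j s
  have := DFunLike.congr_fun h ((j : ℕ), s)
  rw [ind_apply, ind_apply, dif_pos j.2, dif_pos j.2] at this
  simp only [Fin.eta] at this
  split_ifs at this <;> simp_all

lemma le_ind {m : ℕ} {U : Fin m → Finset (Fin n)} {a : ℕ × Fin n →₀ ℕ} (h : a ≤ ind U) :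
    ∃ U' : Fin m → Finset (Fin n), a = ind U' := by
  refine ⟨fun j => univ.filter (fun s => a (j, s) ≠ 0), ?_⟩
  ext ⟨i, s⟩
  have := h (i, s)
  rw [ind_apply] at this ⊢
  simp only [mem_filter, mem_univ, true_and]
  split_ifs at this ⊢ <;> omega

lemma ind_succ {m : ℕ} (U : Fin (m + 1) → Finset (Fin n)) :
    ind U = ind (Fin.init U) + indL m (U (Fin.last m)) := by
  unfold ind
  rw [Fin.sum_univ_castSucc]
  rfl

/-- weight of a monomial -/
noncomputable def wt (w : ℕ → ℤ) : (ℕ × Fin n →₀ ℕ) →+ ℤ := Finsupp.weight (fun v => w v.1)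

lemma wt_single (w : ℕ → ℤ) (j : ℕ) (s : Fin n) : wt w (Finsupp.single (j, s) 1) = w j := by
  simp [wt, Finsupp.weight_single]

lemma wt_indL (w : ℕ → ℤ) (j : ℕ) (V : Finset (Fin n)) : wt w (indL j V) = V.card * w j := by
  unfold indL
  rw [map_sum]
  simp [wt_single]

variable (L) in
noncomputable def piw (w : ℕ → ℤ) (ω : ℤ) :
    MvPolynomial (ℕ × Fin n) L →ₗ[L] ((Fin n → Finset (Fin n)) → L) :=
  LinearMap.pi (fun U => if wt w (ind U) = ω then lcoeff L (ind U) else 0)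

lemma piw_apply (w : ℕ → ℤ) (ω : ℤ) (f : MvPolynomial (ℕ × Fin n) L) (U : Fin n → Finset (Fin n)) :
    piw L w ω f U = if wt w (ind U) = ω then coeff (ind U) f else 0 := by
  unfold piw
  rw [LinearMap.pi_apply]
  split_ifs <;> simp

variable (L n) in
def Dom (w : ℕ → ℤ) (ω : ℤ) : Submodule L (MvPolynomial (ℕ × Fin n) L) where
  carrier := {g | AllM g (fun m => wt w m = ω)}
  add_mem' := fun h1 h2 => allM_add h1 h2
  zero_mem' := allM_zero _
  smul_mem' := fun c g h => by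
    show AllM (c • g) _
    rw [← C_mul']
    exact allM_C_mul c h

noncomputable def mu (w : ℕ → ℤ) (ω ω' : ℤ) (T : MvPolynomial (ℕ × Fin n) L) : ℕ :=
  Module.finrank L ((Dom L n w ω').map (piw L w ω ∘ₗ LinearMap.mulLeft L T))

lemma mu_zero (w : ℕ → ℤ) (ω ω' : ℤ) : mu w ω ω' (0 : MvPolynomial (ℕ × Fin n) L) = 0 := by
  unfold mu
  rw [LinearMap.mulLeft_zero_eq_zero, LinearMap.comp_zero, Submodule.map_zero, finrank_bot]

lemma mu_add (w : ℕ → ℤ) (ω ω' : ℤ) (T T' : MvPolynomial (ℕ × Fin n) L) :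
    mu w ω ω' (T + T') ≤ mu w ω ω' T + mu w ω ω' T' := by
  unfold mu
  refine le_trans (Submodule.finrank_mono ?_) (Submodule.finrank_add_le_finrank_add_finrank _ _)
  rintro _ ⟨x, hx, rfl⟩
  simp only [LinearMap.comp_apply, LinearMap.mulLeft_apply, add_mul, map_add]
  exact Submodule.add_mem_sup ⟨x, hx, rfl⟩ ⟨x, hx, rfl⟩

lemma mu_sum (w : ℕ → ℤ) (ω ω' : ℤ) {ι : Type} (s : Finset ι) (f : ι → MvPolynomial (ℕ × Fin n) L)
    (B : ℕ) (h : ∀ i ∈ s, mu w ω ω' (f i) ≤ B) : mu w ω ω' (∑ i ∈ s, f i) ≤ s.card * B := by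
  classical
  induction s using Finset.induction_on with
  | empty => simp [mu_zero]
  | insert a s ha ih =>
    rw [sum_insert ha, card_insert_of_notMem ha]
    have h1 := mu_add w ω ω' (f a) (∑ i ∈ s, f i)
    have h2 := h a (mem_insert_self _ _)
    have h3 := ih (fun i hi => h i (mem_insert_of_mem hi))
    nlinarith

variable (n) in
/-- number of squarefree monomials of weight at most `ω` -/
noncomputable def cnt (w : ℕ → ℤ) (ω : ℤ) : ℕ :=
  (univ.filter (fun U : Fin n → Finset (Fin n) => wt w (ind U) ≤ ω)).card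

lemma mu_factor (w : ℕ → ℤ) (ω ω' ω0 : ℤ) (T1 T2 : MvPolynomial (ℕ × Fin n) L)
    (h : ∀ g ∈ Dom L n w ω', ∀ m ∈ (T2 * g).support,
      piw L w ω (T1 * monomial m 1) ≠ 0 → wt w m ≤ ω0) :
    mu w ω ω' (T1 * T2) ≤ cnt n w ω0 := by
  classical
  unfold mu cnt
  obtain ⟨A, hA⟩ : ∃ A, A = univ.filter (fun U : Fin n → Finset (Fin n) => wt w (ind U) ≤ ω0) :=
    ⟨_, rfl⟩
  rw [← hA]
  obtain ⟨B, hB⟩ : ∃ B : Finset ((Fin n → Finset (Fin n)) → L),
      B = A.image (fun U => piw L w ω (T1 * monomial (ind U) 1)) := ⟨_, rfl⟩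
  have c1 : Module.finrank L (Submodule.span L (B : Set ((Fin n → Finset (Fin n)) → L))) ≤
      B.card := finrank_span_finset_le_card B
  have c2 : B.card ≤ A.card := by rw [hB]; exact card_image_le
  refine le_trans (Submodule.finrank_mono ?_) (le_trans c1 c2)
  rintro _ ⟨g, hg, rfl⟩
  simp only [LinearMap.comp_apply, LinearMap.mulLeft_apply]
  have e0 : T1 * T2 * g = ∑ m ∈ (T2 * g).support, T1 * monomial m (coeff m (T2 * g)) := by
    rw [← mul_sum, ← (T2 * g).as_sum, mul_assoc]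
  rw [e0, map_sum]
  refine Submodule.sum_mem _ (fun m hm => ?_)
  have e : T1 * monomial m (coeff m (T2 * g)) = coeff m (T2 * g) • (T1 * monomial m 1) := by
    rw [← mul_smul_comm, smul_monomial, smul_eq_mul, mul_one]
  rw [e, map_smul]
  refine Submodule.smul_mem _ _ ?_
  by_cases h0 : piw L w ω (T1 * monomial m 1) = 0
  · rw [h0]; exact Submodule.zero_mem _
  · have h1 := h g hg m hm h0
    obtain ⟨U, hU⟩ := Function.ne_iff.1 h0
    rw [piw_apply, coeff_mul_monomial'] at hU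
    have h2 : m ≤ ind U := by
      by_contra h3
      simp [h3] at hU
    obtain ⟨U', rfl⟩ := le_ind h2
    apply Submodule.subset_span
    rw [hB, mem_coe]
    exact mem_image.2 ⟨U', by simp [hA, h1], rfl⟩

lemma mu_neg (w : ℕ → ℤ) (ω ω' ω0 D : ℤ) (P Q : MvPolynomial (ℕ × Fin n) L)
    (hP : AllM P (fun m => wt w m ≤ -D)) (h0 : ω' - D ≤ ω0) : mu w ω ω' (Q * P) ≤ cnt n w ω0 := by
  apply mu_factor
  intro g hg m hm _
  exact AllM.mul (S := fun m => wt w m ≤ ω0) hP hg (fun a b ha hb => by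
    rw [map_add, hb]; linarith) m hm

lemma mu_pos (w : ℕ → ℤ) (ω ω' ω0 D : ℤ) (P Q : MvPolynomial (ℕ × Fin n) L)
    (hP : AllM P (fun m => D ≤ wt w m)) (h0 : ω - D ≤ ω0) : mu w ω ω' (P * Q) ≤ cnt n w ω0 := by
  classical
  apply mu_factor
  intro g _ m _ h1
  obtain ⟨U, hU⟩ := Function.ne_iff.1 h1
  rw [piw_apply, coeff_mul_monomial'] at hU
  split_ifs at hU with h2 h3
  · have h4 := hP (ind U - m) (by simpa using hU)
    have h5 : wt w (ind U - m) + wt w m = ω := by rw [← map_add, tsub_add_cancel_of_le h3, h2]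
    simp only at h4
    linarith
  · simp at hU
  · simp at hU

lemma mu_split (w : ℕ → ℤ) (ω ω' ω0 : ℤ) (u k : ℕ) (h1 : ω' - k * u ≤ ω0) (h2 : ω - k * u ≤ ω0)
    (R : MvPolynomial (ℕ × Fin n) L) (Gs : List (MvPolynomial (ℕ × Fin n) L))
    (hG : ∀ G ∈ Gs, AllM G (fun m => wt w m ≤ -u ∨ u ≤ wt w m)) :
    ∀ (a b : ℕ) (N P : MvPolynomial (ℕ × Fin n) L), AllM N (fun m => wt w m ≤ -(a * u)) →
      AllM P (fun m => b * u ≤ wt w m) → 2 * k ≤ a + b + Gs.length →
      mu w ω ω' (N * P * Gs.prod * R) ≤ 2 ^ Gs.length * cnt n w ω0 := by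
  induction Gs with
  | nil =>
    intro a b N P hN hP hk
    simp only [List.length_nil, List.prod_nil, mul_one, pow_zero, one_mul, add_zero] at hk ⊢
    have hu : (0 : ℤ) ≤ u := Nat.cast_nonneg _
    rcases le_total k a with h | h
    · have h' : (k : ℤ) ≤ a := by exact_mod_cast h
      rw [show N * P * R = P * R * N by ring]
      exact mu_neg w ω ω' ω0 (a * u) _ _ hN (by nlinarith)
    · have h' : (k : ℤ) ≤ b := by exact_mod_cast (by omega : k ≤ b)
      rw [show N * P * R = P * (N * R) by ring]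
      exact mu_pos w ω ω' ω0 (b * u) _ _ hP (by nlinarith)
  | cons G Gs ih =>
    intro a b N P hN hP hk
    have ih' := ih (fun G' h => hG G' (List.mem_cons_of_mem _ h))
    have hG0 := hG G List.mem_cons_self
    obtain ⟨Q1, Q2, hQ, q1, q2⟩ := exists_split G (fun m => wt w m ≤ -u)
    simp only [List.length_cons, List.prod_cons] at hk ⊢
    have t1 := ih' (a + 1) b (N * Q1) P (hN.mul q1 (by
      rintro m m' x1 ⟨_, x2⟩
      rw [map_add]; push_cast; linarith)) hP (by omega)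
    have t2 := ih' a (b + 1) N (P * Q2) hN (hP.mul q2 (by
      rintro m m' x1 ⟨x2, x3⟩
      have := (hG0 m' x2).resolve_left x3
      rw [map_add]; push_cast; linarith)) (by omega)
    rw [show N * P * (G * Gs.prod) * R = N * Q1 * P * Gs.prod * R + N * (P * Q2) * Gs.prod * R by
      rw [hQ]; ring]
    refine le_trans (mu_add _ _ _ _ _) ?_
    rw [pow_succ]
    linarith

lemma mu_groups (w : ℕ → ℤ) (ω ω' ω0 : ℤ) (u : ℕ) (h1 : ω' - u * u ≤ ω0) (h2 : ω - u * u ≤ ω0)
    (R : MvPolynomial (ℕ × Fin n) L) (Gs : List (MvPolynomial (ℕ × Fin n) L))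
    (hG : ∀ G ∈ Gs, AllM G (fun m => wt w m ≤ -u ∨ u ≤ wt w m)) (hl : Gs.length = 2 * u) :
    mu w ω ω' (Gs.prod * R) ≤ 2 ^ (2 * u) * cnt n w ω0 := by
  have := mu_split w ω ω' ω0 u u h1 h2 R Gs hG 0 0 1 1
    (fun m hm => by rw [allM_monomial 0 (1 : L) m hm]; simp)
    (fun m hm => by rw [allM_monomial 0 (1 : L) m hm]; simp) (by omega)
  simpa [hl] using this

/-- the weight of a monomial of degree `e` -/
lemma wt_form (w : ℕ → ℤ) (p : ℤ) (hw : ∀ j, w j = p + 1 ∨ w j = -p) (m : ℕ × Fin n →₀ ℕ) :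
    ∃ a : ℤ, wt w m = (2 * p + 1) * a - p * m.degree := by
  induction m using Finsupp.induction_linear with
  | zero => exact ⟨0, by simp⟩
  | add f g hf hg =>
    obtain ⟨a, ha⟩ := hf
    obtain ⟨b, hb⟩ := hg
    exact ⟨a + b, by rw [map_add, map_add, ha, hb]; push_cast; ring⟩
  | single v k =>
    rcases hw v.1 with h | h
    · exact ⟨k, by simp [wt, Finsupp.weight_single, h]; ring⟩
    · exact ⟨0, by simp [wt, Finsupp.weight_single, h]; ring⟩

lemma wt_far (w : ℕ → ℤ) (u : ℕ) (hw : ∀ j, w j = 3 * u + 1 ∨ w j = -(3 * u))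
    (m : ℕ × Fin n →₀ ℕ) (he : m.degree = 1 ∨ (2 * u ≤ m.degree ∧ m.degree < 4 * u)) :
    wt w m ≤ -u ∨ u ≤ wt w m := by
  obtain ⟨a, ha⟩ := wt_form w (3 * u) hw m
  have hu : (0 : ℤ) ≤ u := Nat.cast_nonneg _
  obtain ⟨e, he' | he'⟩ := Nat.even_or_odd' m.degree
  · have h1 : (u : ℤ) ≤ e := by omega
    have h2 : (e : ℤ) ≤ 2 * u := by omega
    rw [he'] at ha
    push_cast at ha
    rcases le_or_gt (e : ℤ) a with h | h
    · right; nlinarith
    · left; nlinarith
  · have h2 : (e : ℤ) ≤ 2 * u := by omega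
    have h3 : (0 : ℤ) ≤ e := Nat.cast_nonneg _
    rw [he'] at ha
    push_cast at ha
    rcases le_or_gt a (e : ℤ) with h | h
    · left; nlinarith
    · right; nlinarith

end Vale.Agent.P346.AF
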