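import Mathlib

/-!
The rank measure: a polynomial acts on pairs of multisets, variables of the first kind removing an
element from the first multiset, variables of the second kind adding one to the second.
-/

namespace Vale.Agent.P346

open MvPolynomial Finset

set_option linter.unusedSectionVars false
set_option linter.unusedVariables false

universe u

theorem rank_add_le' {K : Type u} [Field K] {m n : Type} [Fintype m] [Fintype n]
    (A B : Matrix m n K) : (A + B).rank ≤ A.rank + B.rank := by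
  unfold Matrix.rank
  rw [Matrix.mulVecLin_add]
  refine le_trans (Submodule.finrank_mono ?_) (Submodule.finrank_add_le_finrank_add_finrank _ _)
  rintro _ ⟨x, rfl⟩
  exact Submodule.add_mem_sup ⟨x, rfl⟩ ⟨x, rfl⟩

/-- Pairs of multisets. -/
abbrev Cfg (α β : Type) : Type := (α →₀ ℕ) × (β →₀ ℕ)

variable {K : Type u} [Field K] {X α β : Type} [Fintype α] [DecidableEq α] [Fintype β]
  [DecidableEq β]

/-- Pairs of multisets of prescribed sizes. -/
def Box (α β : Type) [Fintype α] [DecidableEq α] [Fintype β] [DecidableEq β] (p q : ℕ) :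
    Finset (Cfg α β) :=
  finsuppAntidiag univ p ×ˢ finsuppAntidiag univ q

theorem mem_anti {p : ℕ} {x : α →₀ ℕ} : x ∈ finsuppAntidiag univ p ↔ x.degree = p := by
  simp [Finsupp.degree_eq_sum]

theorem mem_Box {p q : ℕ} {x : Cfg α β} : x ∈ Box α β p q ↔ x.1.degree = p ∧ x.2.degree = q := by
  simp only [Box, mem_product, mem_anti]

variable (πY : (X →₀ ℕ) →+ (α →₀ ℕ)) (πZ : (X →₀ ℕ) →+ (β →₀ ℕ))

/-- The monomial `m` moves the configuration `c` to `r`. -/
def rel (m : X →₀ ℕ) (r c : Cfg α β) : Prop := r.1 + πY m = c.1 ∧ r.2 = c.2 + πZ m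

noncomputable instance (m : X →₀ ℕ) (r c : Cfg α β) : Decidable (rel πY πZ m r c) := by
  unfold rel; infer_instance

/-- Matrix entry of the action of a polynomial. -/
noncomputable def ent (r c : Cfg α β) : MvPolynomial X K →ₗ[K] K :=
  (basisMonomials X K).constr K (fun m => if rel πY πZ m r c then 1 else 0)

theorem ent_monomial (r c : Cfg α β) (m : X →₀ ℕ) (a : K) :
    ent πY πZ r c (monomial m a) = if rel πY πZ m r c then a else 0 := by
  have : monomial m a = a • basisMonomials X K m := by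
    simp [smul_monomial]
  rw [this, map_smul, ent, Module.Basis.constr_basis]
  split_ifs <;> simp

theorem ent_eq_sum (r c : Cfg α β) (f : MvPolynomial X K) :
    ent πY πZ r c f = ∑ m ∈ f.support, if rel πY πZ m r c then coeff m f else 0 := by
  conv_lhs => rw [f.as_sum]
  simp only [map_sum, ent_monomial]

/-- The matrix of a polynomial between two finite sets of configurations. -/
noncomputable def Mat (R C : Finset (Cfg α β)) (f : MvPolynomial X K) : Matrix R C K :=
  Matrix.of fun r c => ent πY πZ r.1 c.1 f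

/-- The rank measure. -/
noncomputable def Gam (R C : Finset (Cfg α β)) (f : MvPolynomial X K) : ℕ :=
  (Mat πY πZ R C f).rank

theorem Gam_add_le (R C : Finset (Cfg α β)) (f g : MvPolynomial X K) :
    Gam πY πZ R C (f + g) ≤ Gam πY πZ R C f + Gam πY πZ R C g := by
  have : Mat πY πZ R C (f + g) = Mat πY πZ R C f + Mat πY πZ R C g := by
    ext r c; simp [Mat]
  unfold Gam
  rw [this]
  exact rank_add_le' _ _

theorem Gam_zero (R C : Finset (Cfg α β)) : Gam πY πZ R C (0 : MvPolynomial X K) = 0 := by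
  have : Mat πY πZ R C (0 : MvPolynomial X K) = 0 := by
    ext r c; simp [Mat]
  unfold Gam
  rw [this, Matrix.rank_zero]

theorem Gam_sum_le {ι : Type} (R C : Finset (Cfg α β)) (s : Finset ι) (f : ι → MvPolynomial X K)
    (B : ℝ) (h : ∀ i ∈ s, (Gam πY πZ R C (f i) : ℝ) ≤ B) :
    (Gam πY πZ R C (∑ i ∈ s, f i) : ℝ) ≤ s.card * B := by
  classical
  induction s using Finset.induction_on with
  | empty => simp [Gam_zero]
  | insert a s ha ih =>
    rw [sum_insert ha, card_insert_of_notMem ha]
    have h1 : (Gam πY πZ R C (f a + ∑ i ∈ s, f i) : ℝ) ≤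
        Gam πY πZ R C (f a) + Gam πY πZ R C (∑ i ∈ s, f i) := by
      exact_mod_cast Gam_add_le πY πZ R C _ _
    have h2 := h a (mem_insert_self _ _)
    have h3 := ih (fun i hi => h i (mem_insert_of_mem hi))
    push_cast
    linarith

theorem Gam_mul_le (R C J : Finset (Cfg α β)) (g h : MvPolynomial X K)
    (hJ : ∀ m ∈ g.support, ∀ m' ∈ h.support, ∀ r ∈ R, ∀ c ∈ C, rel πY πZ (m + m') r c →
      (r.1 + πY m, c.2 + πZ m') ∈ J) : Gam πY πZ R C (g * h) ≤ J.card := by
  have key : Mat πY πZ R C (g * h) = Mat πY πZ R J g * Mat πY πZ J C h := by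
    ext r c
    simp only [Mat, Matrix.mul_apply, Matrix.of_apply]
    rw [sum_coe_sort J (fun x => ent πY πZ r.1 x g * ent πY πZ x c.1 h)]
    conv_lhs => rw [g.as_sum, h.as_sum, sum_mul_sum]
    simp only [monomial_mul, map_sum, ent_monomial]
    simp only [ent_eq_sum, sum_mul_sum]
    rw [sum_comm' (s := J) (t := fun _ => g.support) (t' := g.support) (s' := fun _ => J)
      (by tauto)]
    refine sum_congr rfl (fun m hm => ?_)
    rw [sum_comm]
    refine sum_congr rfl (fun m' hm' => ?_)
    split_ifs with hr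
    · rw [sum_eq_single_of_mem _ (hJ m hm m' hm' r.1 r.2 c.1 c.2 hr)]
      · obtain ⟨h1, h2⟩ := hr
        rw [map_add] at h1 h2
        rw [if_pos ⟨rfl, by rw [h2]; simp only; abel⟩, if_pos ⟨by rw [← h1, add_assoc], rfl⟩]
      · intro x _ hx
        split_ifs with a1 a2
        · exact absurd (Prod.ext a1.1.symm a2.2) hx
        · simp
        · simp
        · simp
    · refine (sum_eq_zero (fun x _ => ?_)).symm
      split_ifs with a1 a2
      · refine absurd ⟨?_, ?_⟩ hr
        · rw [map_add, ← add_assoc, a1.1, a2.1]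
        · rw [map_add, a1.2, a2.2]; abel
      · simp
      · simp
      · simp
  unfold Gam
  rw [key]
  refine (Matrix.rank_mul_le_left _ _).trans ?_
  simpa using Matrix.rank_le_card_width (Mat πY πZ R J g)

/-- All monomials have degree `e`. -/
def Hom (g : MvPolynomial X K) (e : ℕ) : Prop := ∀ m ∈ g.support, m.degree = e

/-- A property holds for all monomials. -/
def AllM (g : MvPolynomial X K) (P : (X →₀ ℕ) → Prop) : Prop := ∀ m ∈ g.support, P m

theorem AllM.mul {g h : MvPolynomial X K} {P Q S : (X →₀ ℕ) → Prop} (hg : AllM g P)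
    (hh : AllM h Q) (H : ∀ m m', P m → Q m' → S (m + m')) : AllM (g * h) S := by
  classical
  intro m hm
  obtain ⟨a, ha, b, hb, rfl⟩ := mem_add.1 (support_mul g h hm)
  exact H a b (hg a ha) (hh b hb)

theorem Hom.mul {g h : MvPolynomial X K} {e e' : ℕ} (hg : Hom g e) (hh : Hom h e') :
    Hom (g * h) (e + e') :=
  AllM.mul (P := fun m => m.degree = e) (Q := fun m => m.degree = e') hg hh
    (fun m m' a b => by rw [map_add, a, b])

theorem Hom.C (a : K) : Hom (C a : MvPolynomial X K) 0 := by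
  classical
  intro m hm
  have := support_monomial_subset hm
  rw [mem_singleton] at this
  simp [this]

theorem Hom.var (x : X) : Hom (MvPolynomial.X x : MvPolynomial X K) 1 := by
  classical
  intro m hm
  have := support_monomial_subset hm
  rw [mem_singleton] at this
  simp [this]

theorem Hom.sum {ι : Type} (s : Finset ι) (f : ι → MvPolynomial X K) (e : ℕ)
    (h : ∀ i ∈ s, Hom (f i) e) : Hom (∑ i ∈ s, f i) e := by
  classical
  intro m hm
  obtain ⟨i, hi, hm'⟩ := mem_biUnion.1 (support_sum hm)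
  exact h i hi m hm'

theorem Hom.prod {ι : Type} (s : Multiset ι) (f : ι → MvPolynomial X K) (e : ι → ℕ)
    (h : ∀ i ∈ s, Hom (f i) (e i)) : Hom (s.map f).prod (s.map e).sum := by
  induction s using Multiset.induction_on with
  | empty => simpa using Hom.C (1 : K)
  | cons a s ih =>
    simp only [Multiset.map_cons, Multiset.prod_cons, Multiset.sum_cons]
    exact (h a (Multiset.mem_cons_self _ _)).mul (ih fun i hi => h i (Multiset.mem_cons_of_mem hi))

theorem exists_split (Q : MvPolynomial X K) (P : (X →₀ ℕ) → Prop) :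
    ∃ Q1 Q2 : MvPolynomial X K, Q = Q1 + Q2 ∧ AllM Q1 (fun m => m ∈ Q.support ∧ P m) ∧
      AllM Q2 (fun m => m ∈ Q.support ∧ ¬ P m) := by
  classical
  refine ⟨∑ m ∈ Q.support.filter P, monomial m (coeff m Q),
    ∑ m ∈ Q.support.filter (fun m => ¬ P m), monomial m (coeff m Q), ?_, ?_, ?_⟩
  · rw [sum_filter_add_sum_filter_not, ← Q.as_sum]
  · intro m hm
    obtain ⟨i, hi, hm'⟩ := mem_biUnion.1 (support_sum hm)
    have := mem_singleton.1 (support_monomial_subset hm')
    rw [this]
    exact mem_filter.1 hi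
  · intro m hm
    obtain ⟨i, hi, hm'⟩ := mem_biUnion.1 (support_sum hm)
    have := mem_singleton.1 (support_monomial_subset hm')
    rw [this]
    exact mem_filter.1 hi

/-- Bound for the part of a factor of degree `e` that is applied first. -/
noncomputable def fb (u v : ℝ) (e : ℕ) : ℝ :=
  if e = 0 then 0 else v ^ (e - (e / 2 + 1)) / u ^ (e / 2 + 1)

/-- Bound for the part of a factor of degree `e` that is applied last. -/
noncomputable def gb (u v : ℝ) (e : ℕ) : ℝ := u ^ (e / 2) / v ^ (e - e / 2)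

/-- Loss caused by a factor of degree `e`. -/
noncomputable def phi (u v : ℝ) (e : ℕ) : ℝ := fb u v e ^ 3 + gb u v e

section Main

variable {πY πZ} {u v H : ℝ} {L k q : ℕ}
  (hπ : ∀ m, (πY m).degree + (πZ m).degree = m.degree)
  (hu : 1 ≤ u) (hv : 1 ≤ v) (hH : 0 ≤ H)
  (hdim : ∀ a b, ((Box α β a b).card : ℝ) ≤ H * (u ^ 4) ^ a * (v ^ 4) ^ b)

include hπ hu hv hH hdim

theorem Gam_first (g h : MvPolynomial X K) (e : ℕ) (c : ℝ) (hc : 0 ≤ c) (he : Hom h e)
    (hF : AllM h (fun m => v ^ (πZ m).degree / u ^ (πY m).degree ≤ c)) :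
    (Gam πY πZ (Box α β L (L + q)) (Box α β (L + k) L) (g * h) : ℝ) ≤
      (k + 1) * (H * (u ^ 4) ^ (L + k) * (v ^ 4) ^ L * c ^ 4) := by
  classical
  let S := (range (k + 1)).filter (fun j => v ^ (e - j) / u ^ j ≤ c)
  have h1 := Gam_mul_le πY πZ (Box α β L (L + q)) (Box α β (L + k) L)
    (S.biUnion (fun j => Box α β (L + k - j) (L + (e - j)))) g h (by
      intro m _ m' hm' r hr c' hc' hrel
      obtain ⟨r1, r2⟩ := mem_Box.1 hr
      obtain ⟨c1, c2⟩ := mem_Box.1 hc'
      have a1 := congrArg Finsupp.degree hrel.1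
      simp only [map_add] at a1
      have a2 := hπ m'
      rw [he m' hm'] at a2
      have a3 : e - (πY m').degree = (πZ m').degree := by omega
      refine mem_biUnion.2 ⟨(πY m').degree, mem_filter.2 ⟨mem_range.2 (by omega), ?_⟩, ?_⟩
      · rw [a3]; exact hF m' hm'
      · rw [mem_Box]
        simp only [map_add]
        omega)
  have h2 : ((S.biUnion (fun j => Box α β (L + k - j) (L + (e - j)))).card : ℝ) ≤
      ∑ j ∈ S, ((Box α β (L + k - j) (L + (e - j))).card : ℝ) := by
    exact_mod_cast card_biUnion_le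
  have hu0 : 0 < u := by linarith
  have hv0 : 0 < v := by linarith
  have h3 : ∀ j ∈ S, ((Box α β (L + k - j) (L + (e - j))).card : ℝ) ≤
      H * (u ^ 4) ^ (L + k) * (v ^ 4) ^ L * c ^ 4 := by
    intro j hj
    obtain ⟨j1, j2⟩ := mem_filter.1 hj
    have j3 := mem_range.1 j1
    refine (hdim _ _).trans ?_
    have e1 : H * (u ^ 4) ^ (L + k - j) * (v ^ 4) ^ (L + (e - j)) =
        H * (u ^ 4) ^ (L + k) * (v ^ 4) ^ L * (v ^ (e - j) / u ^ j) ^ 4 := by
      have : L + k = (L + k - j) + j := by omega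
      conv_rhs => rw [this]
      field_simp
      ring
    rw [e1]
    gcongr
  have h4 := sum_le_card_nsmul S _ _ h3
  have h5 : (S.card : ℝ) ≤ k + 1 := by
    have := card_filter_le (range (k + 1)) (fun j => v ^ (e - j) / u ^ j ≤ c)
    rw [card_range] at this
    exact_mod_cast this
  rw [nsmul_eq_mul] at h4
  calc _ ≤ _ := by exact_mod_cast h1
    _ ≤ _ := h2
    _ ≤ _ := h4
    _ ≤ _ := by gcongr

theorem Gam_last (g h : MvPolynomial X K) (e : ℕ) (c : ℝ) (hc : 0 ≤ c) (he : Hom g e)
    (hG : AllM g (fun m => u ^ (πY m).degree / v ^ (πZ m).degree ≤ c)) :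
    (Gam πY πZ (Box α β L (L + q)) (Box α β (L + k) L) (g * h) : ℝ) ≤
      (k + 1) * (H * (u ^ 4) ^ L * (v ^ 4) ^ (L + q) * c ^ 4) := by
  classical
  let S := (range (k + 1)).filter (fun j => e - j ≤ q ∧ u ^ j / v ^ (e - j) ≤ c)
  have h1 := Gam_mul_le πY πZ (Box α β L (L + q)) (Box α β (L + k) L)
    (S.biUnion (fun j => Box α β (L + j) (L + q - (e - j)))) g h (by
      intro m hm m' _ r hr c' hc' hrel
      obtain ⟨r1, r2⟩ := mem_Box.1 hr
      obtain ⟨c1, c2⟩ := mem_Box.1 hc'
      have a1 := congrArg Finsupp.degree hrel.1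
      have a1' := congrArg Finsupp.degree hrel.2
      simp only [map_add] at a1 a1'
      have a2 := hπ m
      rw [he m hm] at a2
      have a3 : e - (πY m).degree = (πZ m).degree := by omega
      refine mem_biUnion.2 ⟨(πY m).degree,
        mem_filter.2 ⟨mem_range.2 (by omega), by omega, ?_⟩, ?_⟩
      · rw [a3]; exact hG m hm
      · rw [mem_Box]
        simp only [map_add]
        omega)
  have h2 : ((S.biUnion (fun j => Box α β (L + j) (L + q - (e - j)))).card : ℝ) ≤
      ∑ j ∈ S, ((Box α β (L + j) (L + q - (e - j))).card : ℝ) := by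
    exact_mod_cast card_biUnion_le
  have hu0 : 0 < u := by linarith
  have hv0 : 0 < v := by linarith
  have h3 : ∀ j ∈ S, ((Box α β (L + j) (L + q - (e - j))).card : ℝ) ≤
      H * (u ^ 4) ^ L * (v ^ 4) ^ (L + q) * c ^ 4 := by
    intro j hj
    obtain ⟨j1, j2, j3⟩ := mem_filter.1 hj
    refine (hdim _ _).trans ?_
    have e1 : H * (u ^ 4) ^ (L + j) * (v ^ 4) ^ (L + q - (e - j)) =
        H * (u ^ 4) ^ L * (v ^ 4) ^ (L + q) * (u ^ j / v ^ (e - j)) ^ 4 := by
      have : L + q = (L + q - (e - j)) + (e - j) := by omega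
      conv_rhs => rw [this]
      field_simp
      ring
    rw [e1]
    gcongr
  have h4 := sum_le_card_nsmul S _ _ h3
  have h5 : (S.card : ℝ) ≤ k + 1 := by
    have := card_filter_le (range (k + 1)) (fun j => e - j ≤ q ∧ u ^ j / v ^ (e - j) ≤ c)
    rw [card_range] at this
    exact_mod_cast this
  rw [nsmul_eq_mul] at h4
  calc _ ≤ _ := by exact_mod_cast h1
    _ ≤ _ := h2
    _ ≤ _ := h4
    _ ≤ _ := by gcongr

theorem Gam_prod (hE : (v ^ 4) ^ q ≤ (u ^ 4) ^ k * v ^ 4) {ι : Type} (s : Multiset ι)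
    (val : ι → MvPolynomial X K) (deg : ι → ℕ) (hval : ∀ i ∈ s, Hom (val i) (deg i))
    (R : MvPolynomial X K) :
    ∀ (g1 g2 : MvPolynomial X K) (e1 e2 : ℕ) (c1 c2 : ℝ), 0 ≤ c1 → 0 ≤ c2 → Hom g1 e1 →
      Hom g2 e2 → AllM g1 (fun m => v ^ (πZ m).degree / u ^ (πY m).degree ≤ c1) →
      AllM g2 (fun m => u ^ (πY m).degree / v ^ (πZ m).degree ≤ c2) →
      (Gam πY πZ (Box α β L (L + q)) (Box α β (L + k) L) (g1 * g2 * (s.map val).prod * R) : ℝ) ≤
        (k + 1) * (H * (u ^ 4) ^ (L + k) * (v ^ 4) ^ L) * v * (c1 ^ 3 * c2) *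
          (s.map (fun i => phi u v (deg i))).prod := by
  have hu0 : 0 < u := by linarith
  have hv0 : 0 < v := by linarith
  induction s using Multiset.induction_on with
  | empty =>
    intro g1 g2 e1 e2 c1 c2 h1 h2 a1 a2 b1 b2
    simp only [Multiset.map_zero, Multiset.prod_zero, mul_one]
    rcases le_total c1 (v * c2) with h | h
    · have := Gam_first hπ hu hv hH hdim (L := L) (k := k) (q := q) (g2 * R) g1 e1 c1 h1 a1 b1
      rw [show g2 * R * g1 = g1 * g2 * R by ring] at this
      refine this.trans ?_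
      calc _ = (k + 1) * (H * (u ^ 4) ^ (L + k) * (v ^ 4) ^ L) * c1 ^ 3 * c1 := by ring
        _ ≤ (k + 1) * (H * (u ^ 4) ^ (L + k) * (v ^ 4) ^ L) * c1 ^ 3 * (v * c2) := by gcongr
        _ = _ := by ring
    · have := Gam_last hπ hu hv hH hdim (L := L) (k := k) (q := q) g2 (g1 * R) e2 c2 h2 a2 b2
      rw [show g2 * (g1 * R) = g1 * g2 * R by ring] at this
      refine this.trans ?_
      calc _ = (k + 1) * (H * (u ^ 4) ^ L * (v ^ 4) ^ L) * c2 ^ 4 * (v ^ 4) ^ q := by ring
        _ ≤ (k + 1) * (H * (u ^ 4) ^ L * (v ^ 4) ^ L) * c2 ^ 4 * ((u ^ 4) ^ k * v ^ 4) := by gcongr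
        _ = (k + 1) * (H * (u ^ 4) ^ (L + k) * (v ^ 4) ^ L) * v * c2 * (v * c2) ^ 3 := by ring
        _ ≤ (k + 1) * (H * (u ^ 4) ^ (L + k) * (v ^ 4) ^ L) * v * c2 * c1 ^ 3 := by gcongr
        _ = _ := by ring
  | cons i s ih =>
    intro g1 g2 e1 e2 c1 c2 h1 h2 a1 a2 b1 b2
    have hi := hval i (Multiset.mem_cons_self _ _)
    have ih' := ih (fun j hj => hval j (Multiset.mem_cons_of_mem hj))
    obtain ⟨Q1, Q2, hQ, q1, q2⟩ := exists_split (val i) (fun m => deg i < 2 * (πY m).degree)
    have hfb : 0 ≤ fb u v (deg i) := by unfold fb; split_ifs <;> positivity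
    have hgb : 0 ≤ gb u v (deg i) := by unfold gb; positivity
    have t1 := ih' (g1 * Q1) g2 (e1 + deg i) e2 (c1 * fb u v (deg i)) c2 (by positivity) h2
      (a1.mul (fun m hm => hi m (q1 m hm).1)) a2
      (b1.mul q1 (by
        rintro m m' x1 ⟨x2, x3⟩
        have y1 := hπ m'
        rw [hi m' x2] at y1
        have y2 : v ^ (πZ m').degree / u ^ (πY m').degree ≤ fb u v (deg i) := by
          unfold fb
          rw [if_neg (by omega)]
          exact div_le_div₀ (by positivity) (pow_le_pow_right₀ hv (by omega)) (by positivity)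
            (pow_le_pow_right₀ hu (by omega))
        simp only [map_add, pow_add]
        rw [← div_mul_div_comm]
        exact mul_le_mul x1 y2 (by positivity) h1)) b2
    have t2 := ih' g1 (g2 * Q2) e1 (e2 + deg i) c1 (c2 * gb u v (deg i)) h1 (by positivity) a1
      (a2.mul (fun m hm => hi m (q2 m hm).1)) b1
      (b2.mul q2 (by
        rintro m m' x1 ⟨x2, x3⟩
        have y1 := hπ m'
        rw [hi m' x2] at y1
        have y2 : u ^ (πY m').degree / v ^ (πZ m').degree ≤ gb u v (deg i) := by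
          unfold gb
          exact div_le_div₀ (by positivity) (pow_le_pow_right₀ hu (by omega)) (by positivity)
            (pow_le_pow_right₀ hv (by omega))
        simp only [map_add, pow_add]
        rw [← div_mul_div_comm]
        exact mul_le_mul x1 y2 (by positivity) h2))
    simp only [Multiset.map_cons, Multiset.prod_cons]
    have e : g1 * g2 * (val i * (s.map val).prod) * R =
        g1 * Q1 * g2 * (s.map val).prod * R + g1 * (g2 * Q2) * (s.map val).prod * R := by
      rw [hQ]; ring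
    rw [e]
    have t3 := Gam_add_le πY πZ (Box α β L (L + q)) (Box α β (L + k) L)
      (g1 * Q1 * g2 * (s.map val).prod * R) (g1 * (g2 * Q2) * (s.map val).prod * R)
    have t4 := (Nat.cast_le (α := ℝ)).2 t3
    rw [Nat.cast_add] at t4
    refine t4.trans ((add_le_add t1 t2).trans (le_of_eq ?_))
    unfold phi; ring

theorem Gam_prod' (hE : (v ^ 4) ^ q ≤ (u ^ 4) ^ k * v ^ 4) {ι : Type} (s : Multiset ι)
    (val : ι → MvPolynomial X K) (deg : ι → ℕ) (hval : ∀ i ∈ s, Hom (val i) (deg i))
    (R : MvPolynomial X K) :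
    (Gam πY πZ (Box α β L (L + q)) (Box α β (L + k) L) ((s.map val).prod * R) : ℝ) ≤
      (k + 1) * (H * (u ^ 4) ^ (L + k) * (v ^ 4) ^ L) * v *
        (s.map (fun i => phi u v (deg i))).prod := by
  classical
  have h1 : ∀ P : (X →₀ ℕ) → Prop, P 0 → AllM (1 : MvPolynomial X K) P := by
    intro P hP m hm
    have := mem_singleton.1 (support_monomial_subset hm)
    rwa [this]
  have := Gam_prod hπ hu hv hH hdim (L := L) hE s val deg hval R 1 1 0 0 1 1 zero_le_one
    zero_le_one (h1 (fun m => m.degree = 0) (by simp)) (h1 (fun m => m.degree = 0) (by simp))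
    (h1 _ (by simp)) (h1 _ (by simp))
  simpa using this

end Main

end Vale.Agent.P346
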