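import Vale.Agent.P346.Defs
import Vale.Agent.P346.Rank

/-!
The upper bound on the rank measure of the output of a homogeneous depth five circuit.
-/

namespace Vale.Agent.P346

open MvPolynomial Finset

set_option linter.unusedSectionVars false
set_option linter.unusedVariables false

universe u

variable {K : Type u} [Field K] {X α β : Type} [Fintype α] [DecidableEq α] [Fintype β]
  [DecidableEq β] {πY : (X →₀ ℕ) →+ (α →₀ ℕ)} {πZ : (X →₀ ℕ) →+ (β →₀ ℕ)}

theorem Gam_eq_zero (hπ : ∀ m, (πY m).degree + (πZ m).degree = m.degree) {L k q e : ℕ}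
    {f : MvPolynomial X K} (hf : Hom f e) (he : e ≠ k + q) :
    Gam πY πZ (Box α β L (L + q)) (Box α β (L + k) L) f = 0 := by
  have : Mat πY πZ (Box α β L (L + q)) (Box α β (L + k) L) f = 0 := by
    ext r c
    simp only [Mat, Matrix.of_apply, ent_eq_sum, Matrix.zero_apply]
    refine sum_eq_zero (fun m hm => if_neg (fun h => he ?_))
    obtain ⟨r1, r2⟩ := mem_Box.1 r.2
    obtain ⟨c1, c2⟩ := mem_Box.1 c.2
    have a1 := congrArg Finsupp.degree h.1
    have a2 := congrArg Finsupp.degree h.2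
    have a3 := hπ m
    rw [hf m hm] at a3
    simp only [map_add] at a1 a2
    omega
  unfold Gam
  rw [this, Matrix.rank_zero]

theorem phi_zero (u v : ℝ) : phi u v 0 = 1 := by simp [phi, fb, gb]

theorem phi_nonneg {u v : ℝ} (hu : 0 ≤ u) (hv : 0 ≤ v) (e : ℕ) : 0 ≤ phi u v e := by
  unfold phi fb gb
  split_ifs <;> positivity

theorem prod_le_pow_sum {ι : Type} (s : Multiset ι) (f : ι → ℝ) (e : ι → ℕ) (x : ℝ) (hx : 0 ≤ x)
    (h0 : ∀ i, 0 ≤ f i) (h : ∀ i ∈ s, f i ≤ x ^ e i) : (s.map f).prod ≤ x ^ (s.map e).sum := by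
  induction s using Multiset.induction_on with
  | empty => simp
  | cons a s ih =>
    simp only [Multiset.map_cons, Multiset.prod_cons, Multiset.sum_cons, pow_add]
    exact mul_le_mul (h a (Multiset.mem_cons_self _ _))
      (ih fun i hi => h i (Multiset.mem_cons_of_mem hi))
      (Multiset.prod_map_nonneg (fun i _ => h0 i)) (by positivity)

theorem Gam_circuit {u v H : ℝ} {L k q : ℕ}
    (hπ : ∀ m, (πY m).degree + (πZ m).degree = m.degree)
    (hu : 1 ≤ u) (hv : 1 ≤ v) (hH : 0 ≤ H)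
    (hdim : ∀ a b, ((Box α β a b).card : ℝ) ≤ H * (u ^ 4) ^ a * (v ^ 4) ^ b)
    (hE : (v ^ 4) ^ q ≤ (u ^ 4) ^ k * v ^ 4) {τ : ℕ} {x1 x2 ε : ℝ} (hx1 : 0 ≤ x1) (hx2 : 0 ≤ x2)
    (hx2' : x2 ≤ 1) (h1 : ∀ e, e ≤ τ → phi u v e ≤ x1 ^ e) (h2 : phi u v 1 ≤ x2)
    (h3 : x1 ^ (k + q) ≤ ε) (h4 : x2 ^ τ ≤ ε) (Γ : Circuit K X) (hΓ : Γ.Homogeneous) :
    (Gam πY πZ (Box α β L (L + q)) (Box α β (L + k) L) Γ.out : ℝ) ≤
      Γ.size * (Γ.size * ((k + 1) * (H * (u ^ 4) ^ (L + k) * (v ^ 4) ^ L) * v * ε)) := by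
  obtain ⟨d1, d3, d5, g1, g3, g5⟩ := hΓ
  have hu0 : 0 ≤ u := by linarith
  have hv0 : 0 ≤ v := by linarith
  have hε : 0 ≤ ε := le_trans (by positivity) h3
  have v0 : ∀ i, Hom (Γ.val0 i) (Γ.deg0 i) := by
    intro i
    unfold Circuit.val0 Circuit.deg0
    cases Γ.leaf i
    · exact Hom.var _
    · exact Hom.C _
  have v1 : ∀ g, Hom (Γ.val1 g) (d1 g) := fun g => Hom.sum _ _ _ (fun i hi => by
    have := (Hom.C (X := X) (Γ.c1 g i)).mul (v0 i)
    rwa [zero_add, g1 g i hi] at this)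
  have v2 : ∀ g, Hom (Γ.val2 g) ((Γ.in2 g).map d1).sum := fun g =>
    Hom.prod _ _ _ (fun i _ => v1 i)
  have v3 : ∀ g, Hom (Γ.val3 g) (d3 g) := fun g => Hom.sum _ _ _ (fun i hi => by
    have := (Hom.C (X := X) (Γ.c3 g i)).mul (v2 i)
    rwa [zero_add, g3 g i hi] at this)
  have v4 : ∀ g, Hom (Γ.val4 g) ((Γ.in4 g).map d3).sum := fun g =>
    Hom.prod _ _ _ (fun i _ => v3 i)
  set B := (k + 1) * (H * (u ^ 4) ^ (L + k) * (v ^ 4) ^ L) * v with hB
  have hB0 : 0 ≤ B := by positivity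
  have s1 : (1 : ℝ) ≤ Γ.size := by
    unfold Circuit.size; exact_mod_cast Nat.le_add_left _ _
  have s2 : ∀ g, ((Γ.in3 g).card : ℝ) ≤ Γ.size := by
    intro g
    have := @card_le_univ _ Γ.fin2 (Γ.in3 g)
    unfold Circuit.size
    exact_mod_cast (by omega)
  have s4 : (Γ.in5.card : ℝ) ≤ Γ.size := by
    have := @card_le_univ _ Γ.fin4 Γ.in5
    unfold Circuit.size
    exact_mod_cast (by omega)
  refine (Gam_sum_le πY πZ _ _ _ _ (Γ.size * (B * ε)) (fun i hi => ?_)).trans (by gcongr)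
  by_cases hd : d5 = k + q
  swap
  · have := (Hom.C (X := X) (Γ.c5 i)).mul (v4 i)
    rw [zero_add, g5 i hi] at this
    rw [Gam_eq_zero hπ this hd, Nat.cast_zero]
    positivity
  by_cases hτ : ∀ g ∈ Γ.in4 i, d3 g ≤ τ
  · rw [mul_comm (C _), Circuit.val4]
    refine (Gam_prod' hπ hu hv hH hdim hE _ _ d3 (fun g _ => v3 g) _).trans ?_
    have := prod_le_pow_sum (Γ.in4 i) (fun g => phi u v (d3 g)) d3 x1 hx1
      (fun g => phi_nonneg hu0 hv0 _) (fun g hg => h1 _ (hτ g hg))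
    rw [g5 i hi, hd] at this
    calc _ ≤ B * ε := mul_le_mul_of_nonneg_left (this.trans h3) hB0
      _ ≤ _ := le_mul_of_one_le_left (by positivity) s1
  · push Not at hτ
    obtain ⟨g, hg, hτ⟩ := hτ
    obtain ⟨t, ht⟩ := Multiset.exists_cons_of_mem hg
    rw [Circuit.val4, ht, Multiset.map_cons, Multiset.prod_cons, Circuit.val3, sum_mul, mul_sum]
    refine (Gam_sum_le πY πZ _ _ _ _ (B * ε) (fun j hj => ?_)).trans
      (mul_le_mul_of_nonneg_right (s2 g) (by positivity))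
    by_cases h0 : ∀ l ∈ Γ.in2 j, (Γ.in1 l).Nonempty
    · rw [show C (Γ.c5 i) * (C (Γ.c3 g j) * Γ.val2 j * (t.map Γ.val3).prod) =
        Γ.val2 j * (C (Γ.c5 i) * C (Γ.c3 g j) * (t.map Γ.val3).prod) by ring, Circuit.val2]
      refine (Gam_prod' hπ hu hv hH hdim hE _ _ d1 (fun l _ => v1 l) _).trans ?_
      have := prod_le_pow_sum (Γ.in2 j) (fun l => phi u v (d1 l)) d1 x2 hx2
        (fun g => phi_nonneg hu0 hv0 _) (fun l hl => by
          obtain ⟨m, hm⟩ := h0 l hl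
          rw [← g1 l m hm]
          unfold Circuit.deg0
          cases Γ.leaf m
          · simpa using h2
          · simp [phi_zero])
      rw [g3 g j hj] at this
      exact mul_le_mul_of_nonneg_left
        (this.trans ((pow_le_pow_of_le_one hx2 hx2' hτ.le).trans h4)) hB0
    · push Not at h0
      obtain ⟨l, hl, h0⟩ := h0
      have : Γ.val2 j = 0 := by
        refine Multiset.prod_eq_zero (Multiset.mem_map.2 ⟨l, hl, ?_⟩)
        rw [Circuit.val1, h0, sum_empty]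
      rw [this, mul_zero, zero_mul, mul_zero, Gam_zero, Nat.cast_zero]
      positivity

end Vale.Agent.P346
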