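import Vale.Agent.P346.Lower
import Vale.Agent.P346.Circ

/-!
Choice of the multiset alphabets and of the word; the resulting size inequality.
-/

namespace Vale.Agent.P346

open Finset

set_option linter.unusedSectionVars false
set_option linter.unusedVariables false

universe u

theorem choose_ratio (L y a : ℕ) :
    (L * y + a).choose a * (y + 1) ^ L ≤ (L * y + L).choose L * (y + 1) ^ a := by
  have r : ∀ a, (L * y + a + 1) * (L * y + a).choose a = (L * y + (a + 1)).choose (a + 1) * (a + 1) :=
    fun a => Nat.add_one_mul_choose_eq _ _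
  rcases le_total L a with h | h
  · induction a, h using Nat.le_induction with
    | base => exact le_rfl
    | succ a h ih =>
      have h1 : (L * y + (a + 1)).choose (a + 1) ≤ (L * y + a).choose a * (y + 1) := by
        refine Nat.le_of_mul_le_mul_right ?_ (Nat.succ_pos a)
        rw [Nat.succ_eq_add_one, ← r a]
        have : L * y + a + 1 ≤ (y + 1) * (a + 1) := by nlinarith
        calc _ ≤ (y + 1) * (a + 1) * (L * y + a).choose a := by gcongr
          _ = _ := by ring
      calc _ ≤ (L * y + a).choose a * (y + 1) * (y + 1) ^ L := by gcongr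
        _ = (L * y + a).choose a * (y + 1) ^ L * (y + 1) := by ring
        _ ≤ (L * y + L).choose L * (y + 1) ^ a * (y + 1) := by gcongr
        _ = _ := by ring
  · induction h using Nat.decreasingInduction with
    | self => exact le_rfl
    | of_succ a h ih =>
      have h1 : (L * y + a).choose a * (y + 1) ≤ (L * y + (a + 1)).choose (a + 1) := by
        refine Nat.le_of_mul_le_mul_right ?_ (Nat.succ_pos a)
        rw [Nat.succ_eq_add_one, ← r a]
        have : (y + 1) * (a + 1) ≤ L * y + a + 1 := by nlinarith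
        calc _ = (y + 1) * (a + 1) * (L * y + a).choose a := by ring
          _ ≤ _ := by gcongr
      refine Nat.le_of_mul_le_mul_right ?_ (Nat.succ_pos y)
      calc _ = (L * y + a).choose a * (y + 1) * (y + 1) ^ L := by rw [Nat.succ_eq_add_one]; ring
        _ ≤ (L * y + (a + 1)).choose (a + 1) * (y + 1) ^ L := by gcongr
        _ ≤ _ := ih
        _ = _ := by rw [Nat.succ_eq_add_one]; ring

theorem card_anti (N a : ℕ) :
    (finsuppAntidiag (univ : Finset (Fin (N + 1))) a).card = (N + a).choose a := by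
  rw [card_finsuppAntidiag_nat_eq_choose]
  simp only [card_univ, Fintype.card_fin]
  congr 1
  omega

theorem exists_H (L y : ℕ) (hy : 1 ≤ y) : ∃ H : ℝ, 0 < H ∧
    ((finsuppAntidiag (univ : Finset (Fin (L * (y - 1) + 1))) L).card : ℝ) = H * y ^ L ∧
    ∀ a, ((finsuppAntidiag (univ : Finset (Fin (L * (y - 1) + 1))) a).card : ℝ) ≤ H * y ^ a := by
  obtain ⟨y, rfl⟩ : ∃ y', y = y' + 1 := ⟨y - 1, by omega⟩
  simp only [card_anti, Nat.add_sub_cancel]
  have h0 : (0 : ℝ) < (L * y + L).choose L := by exact_mod_cast Nat.choose_pos (by omega)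
  refine ⟨(L * y + L).choose L / ((y + 1 : ℕ) : ℝ) ^ L, by positivity, by field_simp, fun a => ?_⟩
  rw [div_mul_eq_mul_div, le_div_iff₀ (by positivity)]
  exact_mod_cast choose_ratio L y a

/-- The part of a monomial in a set of layers, transported to another alphabet. -/
noncomputable def proj {d w : ℕ} {α : Type} (S : Finset (Fin d))
    (ι : Fin d × Fin w × Fin w → α) : (Fin d × Fin w × Fin w →₀ ℕ) →+ (α →₀ ℕ) :=
  Finsupp.liftAddHom (fun x => if x.1 ∈ S then Finsupp.singleAddHom (ι x) else 0)

theorem proj_single {d w : ℕ} {α : Type} (S : Finset (Fin d))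
    (ι : Fin d × Fin w × Fin w → α) (x : Fin d × Fin w × Fin w) (c : ℕ) :
    proj S ι (Finsupp.single x c) = if x.1 ∈ S then Finsupp.single (ι x) c else 0 := by
  simp only [proj, Finsupp.liftAddHom_apply_single]
  split_ifs <;> simp

theorem proj_mon {d w : ℕ} {α : Type} [Fintype α] [DecidableEq α] (S : Finset (Fin d))
    (ι : Fin d × Fin w × Fin w → α) (p : Fin (d + 1) → Fin w) :
    proj S ι (mon p) = vec S ι p := by
  simp only [mon, map_sum, proj_single, vec]
  exact (sum_ite_mem univ S _).trans (by rw [univ_inter])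

theorem proj_degree {d w : ℕ} {α β : Type} (S : Finset (Fin d))
    (ι : Fin d × Fin w × Fin w → α) (ι' : Fin d × Fin w × Fin w → β)
    (m : Fin d × Fin w × Fin w →₀ ℕ) :
    (proj S ι m).degree + (proj Sᶜ ι' m).degree = m.degree := by
  induction m using Finsupp.induction_linear with
  | zero => simp
  | add f g hf hg => simp only [map_add]; omega
  | single x c =>
    simp only [proj_single, mem_compl]
    split_ifs <;> simp

/-- Partial products of the greedy word. -/
noncomputable def word (y z : ℝ) : ℕ → ℝ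
  | 0 => 1
  | j + 1 => word y z j * if word y z j ≤ 1 then y else z⁻¹

theorem word_inv {y z : ℝ} (hy : 1 ≤ y) (hz : y ≤ z) (j : ℕ) :
    1 ≤ z * word y z j ∧ word y z j ≤ z := by
  have hz0 : 0 < z := by linarith
  induction j with
  | zero => simp only [word]; constructor <;> linarith
  | succ j ih =>
    simp only [word]
    have h0 : 0 < word y z j := by nlinarith [ih.1]
    split_ifs with h
    · constructor <;> nlinarith [ih.1]
    · constructor
      · rw [mul_comm (word y z j), ← mul_assoc, mul_inv_cancel₀ hz0.ne']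
        linarith
      · rw [← div_eq_mul_inv, div_le_iff₀ hz0]
        nlinarith [ih.2]

theorem word_eq (y z : ℝ) (d : ℕ) :
    word y z d = ∏ i : Fin d, if word y z i ≤ 1 then y else z⁻¹ := by
  induction d with
  | zero => simp [word]
  | succ d ih => rw [Fin.prod_univ_castSucc, word, ih]; simp [← ih]

theorem card_Paths {w d : ℕ} (hw : 0 < w) : w ^ (d + 1) ≤ (Paths w d).card * (w * w) := by
  classical
  have := card_le_card_of_injOn (s := (univ : Finset (Fin (d + 1) → Fin w)))
    (t := Paths w d ×ˢ (univ : Finset (Fin w × Fin w)))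
    (fun p => (fun i => if i = 0 ∨ i = Fin.last d then ⟨0, hw⟩ else p i, p 0, p (Fin.last d)))
    (fun p _ => by simp [Paths]) (fun p _ p' _ e => by
      funext i
      have e1 := congrFun (congrArg Prod.fst e) i
      have e2 : p 0 = p' 0 := (congrArg (·.2.1) e :)
      have e3 : p (Fin.last d) = p' (Fin.last d) := (congrArg (·.2.2) e :)
      by_cases h : i = 0 ∨ i = Fin.last d
      · rcases h with rfl | rfl
        · exact e2
        · exact e3
      · simpa [h] using e1)
  simpa using this

theorem core (K : Type u) [Field K] [CharZero K] {n y z τ : ℕ} (hn : 0 < n) (hy : 2 ≤ y)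
    (hz : y ≤ z) {u v x1 x2 ε : ℝ} (hu : 1 ≤ u) (hv : 1 ≤ v) (huy : u ^ 4 = y) (hvz : v ^ 4 = z)
    (hx1 : 0 ≤ x1) (hx2 : 0 ≤ x2) (hx2' : x2 ≤ 1) (h1 : ∀ e, e ≤ τ → phi u v e ≤ x1 ^ e)
    (h2 : phi u v 1 ≤ x2) (h3 : x1 ^ n ≤ ε) (h4 : x2 ^ τ ≤ ε)
    (Γ : Circuit K (Fin n × Fin n × Fin n)) (hΓ : Γ.Homogeneous) (hout : Γ.out = IMM K n n) :
    (n : ℝ) ^ (n + 1) ≤ Γ.size ^ 2 * ε * ((n + 1) * v * z * (n + z) ^ n * (n * n)) := by
  classical
  set L := n * n * n with hL
  obtain ⟨HY, y0, y1, y2⟩ := exists_H L y (by omega)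
  obtain ⟨HZ, z0, z1, z2⟩ := exists_H L z (by omega)
  obtain ⟨ιY⟩ : Nonempty (Fin n × Fin n × Fin n ↪ Fin (L * (y - 1) + 1)) :=
    Function.Embedding.nonempty_of_card_le (by
      simp only [Fintype.card_prod, Fintype.card_fin, ← mul_assoc, ← hL]
      exact (Nat.le_mul_of_pos_right _ (by omega)).trans (Nat.le_succ _))
  obtain ⟨ιZ⟩ : Nonempty (Fin n × Fin n × Fin n ↪ Fin (L * (z - 1) + 1)) :=
    Function.Embedding.nonempty_of_card_le (by
      simp only [Fintype.card_prod, Fintype.card_fin, ← mul_assoc, ← hL]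
      exact (Nat.le_mul_of_pos_right _ (by omega)).trans (Nat.le_succ _))
  have hy' : (2 : ℝ) ≤ y := by exact_mod_cast hy
  have hz' : (y : ℝ) ≤ z := by exact_mod_cast hz
  have hy0 : (0 : ℝ) < y := by linarith
  have hz0 : (0 : ℝ) < z := by linarith
  let S : Finset (Fin n) := univ.filter (fun i => word (y : ℝ) z i ≤ 1)
  have hw := word_inv (y := (y : ℝ)) (z := z) (by linarith) hz'
  have hkq : S.card + Sᶜ.card = n := by simp
  have a1 := Gam_IMM ιY.injective ιZ.injective (proj_mon S ιY) (proj_mon Sᶜ ιZ) hy0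
    (by linarith) y0.le z0.le y2 z2 K L (fun j => if word (y : ℝ) z j ≤ 1 then (y : ℝ) else z⁻¹)
    (word y z) (fun i => by simp [S]) (fun j => by split_ifs <;> positivity) (fun j => rfl)
    (fun j => (hw j).1) (fun j => (hw j).2)
  have hE : (v ^ 4) ^ Sᶜ.card ≤ (u ^ 4) ^ S.card * v ^ 4 := by
    have b := (hw n).1
    rw [word_eq, ← prod_mul_prod_compl S, prod_congr rfl (fun i hi => if_pos (mem_filter.1 hi).2),
      prod_congr rfl (fun i hi => if_neg (by simpa [S] using hi)), prod_const, prod_const,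
      inv_pow, ← mul_assoc, ← div_eq_mul_inv, le_div_iff₀ (by positivity)] at b
    rw [huy, hvz]
    linarith
  have a2 := Gam_circuit (L := L) (H := HY * HZ) (proj_degree S ιY ιZ) hu hv (by positivity)
    (fun a b => by
      rw [Box, card_product, Nat.cast_mul, huy, hvz]
      calc _ ≤ (HY * y ^ a) * (HZ * z ^ b) := by gcongr <;> first | exact y2 a | exact z2 b
        _ = _ := by ring) hE hx1 hx2 hx2' h1 h2 (by rw [hkq]; exact h3) h4 Γ hΓ
  rw [hout, huy, hvz] at a2
  rw [Box, card_product, Nat.cast_mul, y1, z1] at a1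
  have a3 := (Nat.cast_le (α := ℝ)).2 (card_Paths (d := n) hn)
  push_cast at a3
  have hn0 : (0 : ℝ) < n := by exact_mod_cast hn
  have hP : (0 : ℝ) < (Paths n n).card := by
    by_contra h
    have : ((Paths n n).card : ℝ) * (n * n) ≤ 0 :=
      mul_nonpos_of_nonpos_of_nonneg (not_lt.1 h) (by positivity)
    have : (0 : ℝ) < n ^ (n + 1) := by positivity
    linarith
  have hε : 0 ≤ ε := le_trans (by positivity) h3
  have hk : (S.card : ℝ) ≤ n := by exact_mod_cast (by omega)
  have a4 := a1.trans (mul_le_mul_of_nonneg_right a2 (by positivity))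
  have a5 : ((Paths n n).card : ℝ) ≤ Γ.size ^ 2 * ε * ((S.card + 1) * v * z * (n + z) ^ n) := by
    refine le_of_mul_le_mul_right ?_
      (show 0 < (Paths n n).card * (HY * y ^ L * (HZ * z ^ L)) ^ 2 * (y : ℝ) ^ S.card by positivity)
    calc _ = _ := by ring
      _ ≤ _ := a4
      _ = _ := by ring
  calc _ ≤ _ := a3
    _ ≤ Γ.size ^ 2 * ε * ((n + 1) * v * z * (n + z) ^ n) * (n * n) := by
      gcongr
      exact a5.trans (by gcongr)
    _ = _ := by ring

end Vale.Agent.P346
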