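import Vale.Agent.P346.Rank

/-!
Counting lemmas for closed walks of length four in the support of the matrix of `IMM`.
-/

namespace Vale.Agent.P346

open Finset

set_option linter.unusedSectionVars false
set_option linter.unusedVariables false

variable {α : Type} [Fintype α] [DecidableEq α]

theorem card_dom {y H : ℝ} (hy : 0 ≤ y) (hH : 0 ≤ H)
    (hN : ∀ a, ((finsuppAntidiag (univ : Finset α) a).card : ℝ) ≤ H * y ^ a) (a : ℕ)
    (T : Finset α) :
    (((finsuppAntidiag (univ : Finset α) a).filter (fun x => ∀ t ∈ T, x t ≠ 0)).card : ℝ) *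
      y ^ T.card ≤ H * y ^ a := by
  let t : α →₀ ℕ := ∑ s ∈ T, Finsupp.single s 1
  have ht : t.degree = T.card := by simp [t, map_sum]
  have hle : ∀ x : α →₀ ℕ, (∀ s ∈ T, x s ≠ 0) → t ≤ x := by
    intro x hx s
    simp only [t, Finsupp.finsetSum_apply, Finsupp.single_apply, sum_ite_eq']
    split_ifs with h
    · exact Nat.one_le_iff_ne_zero.2 (hx s h)
    · exact Nat.zero_le _
  by_cases h : T.card ≤ a
  · have h1 : ((finsuppAntidiag (univ : Finset α) a).filter
        (fun x => ∀ t ∈ T, x t ≠ 0)).card ≤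
          (finsuppAntidiag (univ : Finset α) (a - T.card)).card := by
      refine card_le_card_of_injOn (fun x => x - t) ?_ ?_
      · intro x hx
        obtain ⟨h1, h2⟩ := mem_filter.1 (mem_coe.1 hx)
        have h3 := congrArg Finsupp.degree (tsub_add_cancel_of_le (hle x h2))
        rw [map_add, ht, mem_anti.1 h1] at h3
        exact mem_coe.2 (mem_anti.2 (by simp only; omega))
      · intro x hx x' hx' e
        rw [← tsub_add_cancel_of_le (hle x (mem_filter.1 (mem_coe.1 hx)).2),
          ← tsub_add_cancel_of_le (hle x' (mem_filter.1 (mem_coe.1 hx')).2)]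
        exact congrArg (· + t) e
    calc _ ≤ H * y ^ (a - T.card) * y ^ T.card := by
          gcongr
          exact (Nat.cast_le.2 h1).trans (hN _)
      _ = _ := by rw [mul_assoc, ← pow_add, Nat.sub_add_cancel h]
  · have : (finsuppAntidiag (univ : Finset α) a).filter (fun x => ∀ t ∈ T, x t ≠ 0) = ∅ := by
      refine filter_eq_empty_iff.2 (fun x hx h2 => h ?_)
      have h3 := congrArg Finsupp.degree (tsub_add_cancel_of_le (hle x h2))
      rw [map_add, ht, mem_anti.1 hx] at h3
      omega
    rw [this]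
    simp only [card_empty, Nat.cast_zero, zero_mul]
    positivity

variable {d w : ℕ}

/-- The variable used by an index sequence in a given layer. -/
def edge (p : Fin (d + 1) → Fin w) (i : Fin d) : Fin d × Fin w × Fin w :=
  (i, p i.castSucc, p i.succ)

/-- The part of the monomial of an index sequence that lies in a set of layers. -/
noncomputable def vec (S : Finset (Fin d)) (ι : Fin d × Fin w × Fin w → α)
    (p : Fin (d + 1) → Fin w) : α →₀ ℕ :=
  ∑ i ∈ S, Finsupp.single (ι (edge p i)) 1

theorem vec_degree (S : Finset (Fin d)) (ι : Fin d × Fin w × Fin w → α)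
    (p : Fin (d + 1) → Fin w) : (vec S ι p).degree = S.card := by
  simp [vec, map_sum]

theorem vec_apply {S : Finset (Fin d)} {ι : Fin d × Fin w × Fin w → α}
    (hι : Function.Injective ι) (p p' : Fin (d + 1) → Fin w) {i : Fin d} (hi : i ∈ S) :
    vec S ι p (ι (edge p' i)) = if edge p i = edge p' i then 1 else 0 := by
  simp only [vec, Finsupp.finsetSum_apply, Finsupp.single_apply, hι.eq_iff]
  rw [sum_eq_single_of_mem i hi]
  intro j _ hj
  rw [if_neg]
  intro h
  exact hj (congrArg Prod.fst h)

theorem vec_types {S : Finset (Fin d)} {ι : Fin d × Fin w × Fin w → α}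
    (hι : Function.Injective ι) {p1 p2 p3 p4 : Fin (d + 1) → Fin w}
    (h : vec S ι p1 + vec S ι p3 = vec S ι p2 + vec S ι p4) {i : Fin d} (hi : i ∈ S) :
    (edge p1 i = edge p4 i → edge p3 i = edge p2 i) ∧
    (edge p1 i ≠ edge p4 i → edge p1 i = edge p2 i ∧ edge p3 i = edge p4 i) := by
  have key : ∀ p, _ := fun p => DFunLike.congr_fun h (ι (edge p i))
  simp only [Finsupp.add_apply, vec_apply hι _ _ hi] at key
  have k1 := key p1
  have k3 := key p3
  have k4 := key p4
  generalize edge p1 i = a at *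
  generalize edge p2 i = b at *
  generalize edge p3 i = c at *
  generalize edge p4 i = e at *
  clear key h
  grind

theorem card_dom2 {y H : ℝ} (hy : 0 ≤ y) (hH : 0 ≤ H)
    (hN : ∀ a, ((finsuppAntidiag (univ : Finset α) a).card : ℝ) ≤ H * y ^ a) (a : ℕ)
    (S : Finset (Fin d)) {ι : Fin d × Fin w × Fin w → α} (hι : Function.Injective ι)
    (p p' : Fin (d + 1) → Fin w) :
    (((finsuppAntidiag (univ : Finset α) a).filter
      (fun x => vec S ι p ≤ x ∧ vec S ι p' ≤ x)).card : ℝ) *
      (y ^ S.card * ∏ i ∈ S, if edge p i = edge p' i then 1 else y) ≤ H * y ^ a := by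
  let T : Finset α := S.biUnion (fun i => {ι (edge p i), ι (edge p' i)})
  have hT : T.card = ∑ i ∈ S, ({ι (edge p i), ι (edge p' i)} : Finset α).card := by
    refine card_biUnion ?_
    intro i _ j _ hij
    rw [Function.onFun, disjoint_left]
    intro x h1 h2
    simp only [mem_insert, mem_singleton] at h1 h2
    rcases h1 with rfl | rfl <;> rcases h2 with h2 | h2 <;>
      exact hij (congrArg Prod.fst (hι h2))
  have e : (y ^ S.card * ∏ i ∈ S, if edge p i = edge p' i then 1 else y) = y ^ T.card := by
    rw [hT, ← prod_pow_eq_pow_sum, ← prod_const, ← prod_mul_distrib]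
    refine prod_congr rfl (fun i _ => ?_)
    split_ifs with h
    · simp [h]
    · rw [card_pair (fun h' => h (hι h')), sq]
  rw [e]
  refine le_trans ?_ (card_dom hy hH hN a T)
  gcongr with x
  rintro ⟨h1, h2⟩ t ht
  obtain ⟨i, hi, ht⟩ := mem_biUnion.1 ht
  simp only [mem_insert, mem_singleton] at ht
  rcases ht with rfl | rfl
  · have := h1 (ι (edge p i))
    rw [vec_apply hι _ _ hi, if_pos rfl] at this
    omega
  · have := h2 (ι (edge p' i))
    rw [vec_apply hι _ _ hi, if_pos rfl] at this
    omega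

theorem switch_step {z A B ρ P : ℝ} (hA : 0 ≤ A) (a1 : 0 ≤ ρ) (a2 : 1 ≤ z * P) (a3 : P ≤ z)
    (b b' : Bool) (h : B ≤ A * (if b then P else 1)) :
    B * (if b' then ρ else 1) ≤ A * (if b = b' then 1 else z) * (if b' then P * ρ else 1) := by
  cases b <;> cases b' <;>
    simp only [Bool.false_eq_true, if_true, if_false, mul_one, Bool.true_eq_false] at h ⊢
  · exact h
  · calc B * ρ ≤ A * ρ := by gcongr
      _ = A * 1 * ρ := by ring
      _ ≤ A * (z * P) * ρ := by gcongr
      _ = _ := by ring
  · exact h.trans (by gcongr)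
  · calc B * ρ ≤ A * P * ρ := by gcongr
      _ = _ := by ring

theorem switch_bound {z : ℝ} (hz : 1 ≤ z) (ρ P : ℕ → ℝ) (hρ : ∀ j, 0 ≤ ρ j)
    (hP : ∀ j, P (j + 1) = P j * ρ j) (h1 : ∀ j, 1 ≤ z * P j) (h2 : ∀ j, P j ≤ z) :
    ∀ (d : ℕ) (σ : Fin (d + 1) → Bool), σ 0 = false →
      (∏ i : Fin d, if σ i.succ then ρ i else 1) ≤
        (∏ i : Fin d, if σ i.castSucc = σ i.succ then 1 else z) *
          (if σ (Fin.last d) then P d else 1) := by
  intro d
  induction d with
  | zero => intro σ h; simp [h]
  | succ d ih =>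
    intro σ h
    have := ih (fun i => σ i.castSucc) h
    rw [Fin.prod_univ_castSucc, Fin.prod_univ_castSucc, hP]
    exact switch_step (prod_nonneg (fun i _ => by split_ifs <;> linarith)) (hρ d) (h1 d) (h2 d)
      _ _ this

end Vale.Agent.P346
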