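import Mathlib

namespace Vale.Agent.P346

open MvPolynomial Finset

universe u

/-- A layered circuit of shape sum, product, sum, product, sum (from the output down) over the
field `K` in the variables `X`. The finite types `L0, ..., L4` are the sets of leaves, bottom sum
gates, lower product gates, middle sum gates and upper product gates; there is one output sum
gate. Sum gates have a finite set of inputs and coefficients, product gates a multiset of inputs;
gates may be shared. -/
structure Circuit (K : Type u) (X : Type) where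
  L0 : Type
  L1 : Type
  L2 : Type
  L3 : Type
  L4 : Type
  fin0 : Fintype L0
  fin1 : Fintype L1
  fin2 : Fintype L2
  fin3 : Fintype L3
  fin4 : Fintype L4
  leaf : L0 → X ⊕ K
  in1 : L1 → Finset L0
  c1 : L1 → L0 → K
  in2 : L2 → Multiset L1
  in3 : L3 → Finset L2
  c3 : L3 → L2 → K
  in4 : L4 → Multiset L3
  in5 : Finset L4
  c5 : L4 → K

namespace Circuit

variable {K : Type u} [Field K] {X : Type} (Γ : Circuit K X)

/-- Number of vertices. -/
def size : ℕ :=
  @Fintype.card _ Γ.fin0 + @Fintype.card _ Γ.fin1 + @Fintype.card _ Γ.fin2 +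
    @Fintype.card _ Γ.fin3 + @Fintype.card _ Γ.fin4 + 1

/-- Polynomial at a leaf. -/
noncomputable def val0 (i : Γ.L0) : MvPolynomial X K := Sum.elim MvPolynomial.X C (Γ.leaf i)

/-- Polynomial at a bottom sum gate. -/
noncomputable def val1 (g : Γ.L1) : MvPolynomial X K := ∑ i ∈ Γ.in1 g, C (Γ.c1 g i) * Γ.val0 i

/-- Polynomial at a lower product gate. -/
noncomputable def val2 (g : Γ.L2) : MvPolynomial X K := ((Γ.in2 g).map Γ.val1).prod

/-- Polynomial at a middle sum gate. -/
noncomputable def val3 (g : Γ.L3) : MvPolynomial X K := ∑ i ∈ Γ.in3 g, C (Γ.c3 g i) * Γ.val2 i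

/-- Polynomial at an upper product gate. -/
noncomputable def val4 (g : Γ.L4) : MvPolynomial X K := ((Γ.in4 g).map Γ.val3).prod

/-- The polynomial computed at the output gate. -/
noncomputable def out : MvPolynomial X K := ∑ i ∈ Γ.in5, C (Γ.c5 i) * Γ.val4 i

/-- Formal degree of a leaf: one for a variable, zero for a constant. -/
def deg0 (i : Γ.L0) : ℕ := Sum.elim (fun _ => 1) (fun _ => 0) (Γ.leaf i)

/-- Syntactic homogeneity: every sum gate has a formal degree shared by all its inputs, the
formal degree of a product gate being the sum of those of its inputs with multiplicity. -/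
def Homogeneous : Prop :=
  ∃ (d1 : Γ.L1 → ℕ) (d3 : Γ.L3 → ℕ) (d5 : ℕ),
    (∀ g, ∀ i ∈ Γ.in1 g, Γ.deg0 i = d1 g) ∧
    (∀ g, ∀ i ∈ Γ.in3 g, ((Γ.in2 i).map d1).sum = d3 g) ∧
    (∀ i ∈ Γ.in5, ((Γ.in4 i).map d3).sum = d5)

end Circuit

/-- Iterated matrix multiplication: the top left entry of the product of `d` generic `w × w`
matrices, written as the sum over index sequences that start and end at the first index. -/
noncomputable def IMM (K : Type u) [Field K] (w d : ℕ) : MvPolynomial (Fin d × Fin w × Fin w) K :=
  ∑ p ∈ univ.filter (fun p : Fin (d + 1) → Fin w => (p 0 : ℕ) = 0 ∧ (p (Fin.last d) : ℕ) = 0),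
    ∏ i : Fin d, X (i, p i.castSucc, p i.succ)

/-- Least size of a syntactically homogeneous depth five circuit computing `IMM K n n`. -/
noncomputable def s (K : Type u) [Field K] (n : ℕ) : ℕ :=
  sInf {m | ∃ Γ : Circuit K (Fin n × Fin n × Fin n),
    Γ.Homogeneous ∧ Γ.out = IMM K n n ∧ Γ.size = m}

end Vale.Agent.P346
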