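import Mathlib

/-!
A lower bound on the rank of a matrix with natural number entries in characteristic zero.
-/

namespace Vale.Agent.P346

open Finset Matrix

universe u

theorem rank_map_eq {F : Type} {K : Type u} [Field F] [Field K] (f : F →+* K) {m : Type}
    [Fintype m] [DecidableEq m] (M : Matrix m m F) : (M.map f).rank = M.rank := by
  classical
  obtain ⟨V, U, e, hV, hU, h⟩ := exists_rank_normal_form M
  have h2 := congrArg (fun A => f.mapMatrix A) h
  simp only [map_mul] at h2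
  have hV' : IsUnit (f.mapMatrix V).det := (isUnit_iff_isUnit_det _).1 (hV.map _)
  have hU' : IsUnit (f.mapMatrix U).det := (isUnit_iff_isUnit_det _).1 (hU.map _)
  have h3 : f.mapMatrix ((fromBlocks 1 0 0 0 : Matrix _ _ F).submatrix e e) =
      (diagonal (Sum.elim (fun _ => (1 : K)) (fun _ => 0))).submatrix e e := by
    ext i j
    simp only [RingHom.mapMatrix_apply, map_apply, submatrix_apply]
    rcases e i with a | a <;> rcases e j with b | b <;> simp [one_apply, diagonal_apply]
  have h4 : (M.map f).rank = (f.mapMatrix V * f.mapMatrix M * f.mapMatrix U).rank := by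
    rw [rank_mul_eq_left_of_isUnit_det _ _ hU', rank_mul_eq_right_of_isUnit_det _ _ hV']
    rfl
  rw [h4, h2, h3, rank_submatrix, rank_diagonal]
  simp [Fintype.card_subtype, Finset.card_filter, Fintype.sum_sum_type]

theorem trace_sq_le {n : Type} [Fintype n] [DecidableEq n] (B : Matrix n n ℝ)
    (hB : B.IsHermitian) : B.trace ^ 2 ≤ B.rank * (B * B).trace := by
  classical
  have h1 := hB.trace_eq_sum_eigenvalues
  have h2 : (B * B).trace = ∑ i, hB.eigenvalues i ^ 2 := by
    conv_lhs => rw [hB.spectral_theorem, ← map_mul, Unitary.conjStarAlgAut_apply,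
      trace_mul_comm, ← mul_assoc]
    simp [diagonal_mul_diagonal, sq]
  rw [h1, h2, hB.rank_eq_card_non_zero_eigs, Fintype.card_subtype]
  simp only [RCLike.ofReal_real_eq_id, id]
  rw [← sum_filter_ne_zero univ (f := fun i => hB.eigenvalues i)]
  refine sq_sum_le_card_mul_sum_sq.trans ?_
  gcongr
  exact filter_subset _ _

theorem rank_lower {K : Type u} [Field K] [CharZero K] {m n : Type} [Fintype m] [Fintype n]
    [DecidableEq n] (M : Matrix m n ℕ) :
    ((∑ r, ∑ c, M r c : ℕ) : ℝ) ^ 2 ≤ (M.map (Nat.cast : ℕ → K)).rank *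
      ((∑ c, ∑ c', ∑ r, ∑ r', M r c * M r c' * M r' c' * M r' c : ℕ) : ℝ) := by
  set B : Matrix n n ℕ := Mᵀ * M with hB
  have e1 : (B.map (Nat.cast : ℕ → ℝ)).rank = (B.map (Nat.cast : ℕ → K)).rank := by
    have a := rank_map_eq (algebraMap ℚ ℝ) (B.map (Nat.cast : ℕ → ℚ))
    have b := rank_map_eq (algebraMap ℚ K) (B.map (Nat.cast : ℕ → ℚ))
    rw [Matrix.map_map] at a b
    have a' : (algebraMap ℚ ℝ) ∘ (Nat.cast : ℕ → ℚ) = Nat.cast := by ext; simp
    have b' : (algebraMap ℚ K) ∘ (Nat.cast : ℕ → ℚ) = Nat.cast := by ext; simp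
    rw [a'] at a
    rw [b'] at b
    rw [a, b]
  have e2 : (B.map (Nat.cast : ℕ → K)).rank ≤ (M.map (Nat.cast : ℕ → K)).rank := by
    have : B.map (Nat.cast : ℕ → K) =
        (M.map (Nat.cast : ℕ → K))ᵀ * M.map (Nat.cast : ℕ → K) := by
      ext i j; simp [hB, mul_apply]
    rw [this]
    exact rank_mul_le_right _ _
  have e3 : (B.map (Nat.cast : ℕ → ℝ)).IsHermitian := by
    ext i j; simp [hB, mul_apply, mul_comm]
  have e4 := trace_sq_le _ e3
  have e5 : ((∑ r, ∑ c, M r c : ℕ) : ℝ) ≤ (B.map (Nat.cast : ℕ → ℝ)).trace := by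
    have : (∑ r, ∑ c, M r c : ℕ) ≤ ∑ c, ∑ r, M r c * M r c := by
      rw [sum_comm]
      gcongr with c _ r _
      exact Nat.le_mul_self _
    refine (Nat.cast_le.2 this).trans (le_of_eq ?_)
    simp [hB, trace, mul_apply]
  have e6 : ((B.map (Nat.cast : ℕ → ℝ)) * (B.map (Nat.cast : ℕ → ℝ))).trace =
      ((∑ c, ∑ c', ∑ r, ∑ r', M r c * M r c' * M r' c' * M r' c : ℕ) : ℝ) := by
    simp only [hB, trace, Matrix.diag, mul_apply, map_apply, transpose_apply, Nat.cast_sum, Nat.cast_mul,
      sum_mul_sum, mul_assoc]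
  rw [e6, e1] at e4
  refine le_trans ?_ (e4.trans ?_)
  · gcongr
  · gcongr

end Vale.Agent.P346
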