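import Vale.Agent.P346.Defs
import Vale.Agent.P346.Count
import Vale.Agent.P346.Trace

/-!
The lower bound on the rank measure of `IMM` in characteristic zero.
-/

namespace Vale.Agent.P346

open Finset

set_option linter.unusedSectionVars false
set_option linter.unusedVariables false

universe u

variable {d w : ℕ}

/-- Index sequences starting and ending at the first index. -/
def Paths (w d : ℕ) : Finset (Fin (d + 1) → Fin w) :=
  univ.filter (fun p => (p 0 : ℕ) = 0 ∧ (p (Fin.last d) : ℕ) = 0)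

/-- Quadruples of index sequences. -/
abbrev Quad (w d : ℕ) : Type :=
  (Fin (d + 1) → Fin w) × (Fin (d + 1) → Fin w) × (Fin (d + 1) → Fin w) × (Fin (d + 1) → Fin w)

/-- In every layer the four edges coincide in pairs as prescribed by `σ`. -/
def Typed (Q : Quad w d) (σ : Fin (d + 1) → Bool) : Prop :=
  σ 0 = false ∧ Q.1 ∈ Paths w d ∧ Q.2.1 ∈ Paths w d ∧ Q.2.2.1 ∈ Paths w d ∧
    Q.2.2.2 ∈ Paths w d ∧ ∀ i : Fin d,
      (σ i.succ = true → edge Q.1 i = edge Q.2.2.2 i ∧ edge Q.2.2.1 i = edge Q.2.1 i) ∧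
      (σ i.succ = false → edge Q.1 i = edge Q.2.1 i ∧ edge Q.2.2.1 i = edge Q.2.2.2 i)

theorem Typed.switch {Q : Quad w d} {σ : Fin (d + 1) → Bool} (h : Typed Q σ) (i : Fin d)
    (hi : σ i.castSucc ≠ σ i.succ) : Q.2.2.1 i.castSucc = Q.1 i.castSucc := by
  obtain ⟨h0, h1, h2, h3, h4, h5⟩ := h
  have a : ∀ v : Fin (d + 1), (σ v = true → Q.2.2.1 v = Q.2.1 v) ∧
      (σ v = false → Q.1 v = Q.2.1 v) := by
    intro v
    refine Fin.cases ?_ (fun j => ?_) v
    · have b1 := (mem_filter.1 h1).2.1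
      have b2 := (mem_filter.1 h2).2.1
      have b3 := (mem_filter.1 h3).2.1
      exact ⟨fun _ => Fin.ext (by omega), fun _ => Fin.ext (by omega)⟩
    · exact ⟨fun e => congrArg (·.2.2) ((h5 j).1 e).2, fun e => congrArg (·.2.2) ((h5 j).2 e).1⟩
  cases e : σ i.succ
  · have e' : σ i.castSucc = true := by simpa [e] using hi
    exact ((a _).1 e').trans (congrArg (·.2.1) ((h5 i).2 e).1).symm
  · have e' : σ i.castSucc = false := by simpa [e] using hi
    exact (congrArg (·.2.1) ((h5 i).1 e).2).trans ((a _).2 e').symm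

theorem sum_typed_le {z : ℝ} (hz : 0 ≤ z) (V : Finset (Quad w d))
    (sg : Quad w d → Fin (d + 1) → Bool) (hV : ∀ Q ∈ V, Typed Q (sg Q)) :
    ∑ Q ∈ V, (∏ i : Fin d, if sg Q i.castSucc = sg Q i.succ then 1 else z) ≤
      (Paths w d).card * (w + z) ^ d := by
  classical
  let enc : Quad w d → (Fin (d + 1) → Fin w) × (Fin d → Option (Fin w)) := fun Q =>
    (Q.1, fun i => if sg Q i.castSucc = sg Q i.succ then some (Q.2.2.1 i.castSucc) else none)
  let g : (Fin (d + 1) → Fin w) × (Fin d → Option (Fin w)) → ℝ := fun x =>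
    ∏ i, (x.2 i).elim z (fun _ => 1)
  have hinj : Set.InjOn enc V := by
    intro Q hQ Q' hQ' e
    have t := hV Q hQ
    have t' := hV Q' hQ'
    have e1 : Q.1 = Q'.1 := (congrArg Prod.fst e :)
    have e2 := fun i => congrFun (congrArg Prod.snd e) i
    simp only [enc] at e2
    have e3 : ∀ v, sg Q v = sg Q' v := by
      intro v
      induction v using Fin.induction with
      | zero => rw [t.1, t'.1]
      | succ i ih =>
        have := e2 i
        rw [ih] at this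
        split_ifs at this with a b b
        · rw [← a, ← b]
        · generalize sg Q' i.castSucc = x at *
          generalize sg Q' i.succ = x' at *
          generalize sg Q i.succ = x'' at *
          cases x <;> cases x' <;> cases x'' <;> simp_all
    have e4 : Q.2.2.1 = Q'.2.2.1 := by
      funext v
      refine Fin.lastCases ?_ (fun i => ?_) v
      · have b1 := (mem_filter.1 t.2.2.2.1).2.2
        have b2 := (mem_filter.1 t'.2.2.2.1).2.2
        exact Fin.ext (by omega)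
      · by_cases a : sg Q i.castSucc = sg Q i.succ
        · have := e2 i
          rw [if_pos a, if_pos (by rw [← e3, ← e3]; exact a)] at this
          exact Option.some.inj this
        · rw [t.switch i a, t'.switch i (by rw [← e3, ← e3]; exact a), e1]
    have e5 : Q.2.1 = Q'.2.1 ∧ Q.2.2.2 = Q'.2.2.2 := by
      constructor <;> funext v <;> refine Fin.cases ?_ (fun i => ?_) v
      · have b1 := (mem_filter.1 t.2.2.1).2.1
        have b2 := (mem_filter.1 t'.2.2.1).2.1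
        exact Fin.ext (by omega)
      · cases a : sg Q i.succ
        · have c1 := congrArg (·.2.2) ((t.2.2.2.2.2 i).2 a).1
          have c2 := congrArg (·.2.2) ((t'.2.2.2.2.2 i).2 (by rw [← e3]; exact a)).1
          simp only [edge] at c1 c2
          rw [← c1, ← c2, e1]
        · have c1 := congrArg (·.2.2) ((t.2.2.2.2.2 i).1 a).2
          have c2 := congrArg (·.2.2) ((t'.2.2.2.2.2 i).1 (by rw [← e3]; exact a)).2
          simp only [edge] at c1 c2
          rw [← c1, ← c2, e4]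
      · have b1 := (mem_filter.1 t.2.2.2.2.1).2.1
        have b2 := (mem_filter.1 t'.2.2.2.2.1).2.1
        exact Fin.ext (by omega)
      · cases a : sg Q i.succ
        · have c1 := congrArg (·.2.2) ((t.2.2.2.2.2 i).2 a).2
          have c2 := congrArg (·.2.2) ((t'.2.2.2.2.2 i).2 (by rw [← e3]; exact a)).2
          simp only [edge] at c1 c2
          rw [← c1, ← c2, e4]
        · have c1 := congrArg (·.2.2) ((t.2.2.2.2.2 i).1 a).1
          have c2 := congrArg (·.2.2) ((t'.2.2.2.2.2 i).1 (by rw [← e3]; exact a)).1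
          simp only [edge] at c1 c2
          rw [← c1, ← c2, e1]
    exact Prod.ext e1 (Prod.ext e5.1 (Prod.ext e4 e5.2))
  have hg : ∀ x, 0 ≤ g x := fun x => prod_nonneg (fun i _ => by cases x.2 i <;> simp [hz])
  calc _ = ∑ Q ∈ V, g (enc Q) := by
        refine sum_congr rfl (fun Q _ => prod_congr rfl (fun i _ => ?_))
        simp only [enc]
        split_ifs <;> rfl
    _ = ∑ x ∈ V.image enc, g x := (sum_image hinj).symm
    _ ≤ ∑ x ∈ Paths w d ×ˢ univ, g x := by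
        refine sum_le_sum_of_subset_of_nonneg ?_ (fun x _ _ => hg x)
        intro x hx
        obtain ⟨Q, hQ, rfl⟩ := mem_image.1 hx
        exact mem_product.2 ⟨(hV Q hQ).2.1, mem_univ _⟩
    _ = _ := by
        rw [sum_product]
        simp only [g]
        rw [sum_const, nsmul_eq_mul, ← Fintype.piFinset_univ, ← prod_univ_sum (fun _ => univ)
          (fun (i : Fin d) (o : Option (Fin w)) => o.elim z (fun _ => (1 : ℝ)))]
        simp [add_comm]

variable {α β : Type} [Fintype α] [DecidableEq α] [Fintype β] [DecidableEq β]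

/-- The monomial of an index sequence. -/
noncomputable def mon (p : Fin (d + 1) → Fin w) : Fin d × Fin w × Fin w →₀ ℕ :=
  ∑ i, Finsupp.single (edge p i) 1

section Main

variable {πY : (Fin d × Fin w × Fin w →₀ ℕ) →+ (α →₀ ℕ)}
  {πZ : (Fin d × Fin w × Fin w →₀ ℕ) →+ (β →₀ ℕ)} {S : Finset (Fin d)}
  {ιY : Fin d × Fin w × Fin w → α} {ιZ : Fin d × Fin w × Fin w → β}
  (hιY : Function.Injective ιY) (hιZ : Function.Injective ιZ)
  (hY : ∀ p, πY (mon p) = vec S ιY p) (hZ : ∀ p, πZ (mon p) = vec Sᶜ ιZ p)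
  {y z HY HZ : ℝ} (hy : 0 < y) (hz : 1 ≤ z) (hHY : 0 ≤ HY) (hHZ : 0 ≤ HZ)
  (hNY : ∀ a, ((finsuppAntidiag (univ : Finset α) a).card : ℝ) ≤ HY * y ^ a)
  (hNZ : ∀ a, ((finsuppAntidiag (univ : Finset β) a).card : ℝ) ≤ HZ * z ^ a)

/-- The four relations of a closed walk of length four. -/
def Walk (πY : (Fin d × Fin w × Fin w →₀ ℕ) →+ (α →₀ ℕ))
    (πZ : (Fin d × Fin w × Fin w →₀ ℕ) →+ (β →₀ ℕ)) (Q : Quad w d)
    (t : Cfg α β × Cfg α β × Cfg α β × Cfg α β) : Prop :=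
  rel πY πZ (mon Q.1) t.2.2.1 t.1 ∧ rel πY πZ (mon Q.2.1) t.2.2.1 t.2.1 ∧
    rel πY πZ (mon Q.2.2.1) t.2.2.2 t.2.1 ∧ rel πY πZ (mon Q.2.2.2) t.2.2.2 t.1

noncomputable instance (Q : Quad w d) (t : Cfg α β × Cfg α β × Cfg α β × Cfg α β) :
    Decidable (Walk πY πZ Q t) := by
  unfold Walk; infer_instance

/-- The type pattern of a quadruple. -/
def sgn (S : Finset (Fin d)) (Q : Quad w d) : Fin (d + 1) → Bool :=
  Fin.cons false (fun i => if i ∈ S then decide (edge Q.1 i = edge Q.2.2.2 i)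
    else decide (edge Q.1 i ≠ edge Q.2.1 i))

include hιY hιZ hY hZ in
theorem Walk.typed {Q : Quad w d} {t : Cfg α β × Cfg α β × Cfg α β × Cfg α β}
    (h : Walk πY πZ Q t) (hQ : Q ∈ Paths w d ×ˢ Paths w d ×ˢ Paths w d ×ˢ Paths w d) :
    Typed Q (sgn S Q) := by
  simp only [mem_product] at hQ
  refine ⟨rfl, hQ.1, hQ.2.1, hQ.2.2.1, hQ.2.2.2, fun i => ?_⟩
  obtain ⟨⟨a1, b1⟩, ⟨a2, b2⟩, ⟨a3, b3⟩, ⟨a4, b4⟩⟩ := h
  rw [hY] at a1 a2 a3 a4
  rw [hZ] at b1 b2 b3 b4
  simp only [sgn, Fin.cons_succ]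
  split_ifs with hi
  · have := vec_types hιY (p1 := Q.1) (p2 := Q.2.1) (p3 := Q.2.2.1) (p4 := Q.2.2.2) (by
      ext x
      have c1 := DFunLike.congr_fun a1 x
      have c2 := DFunLike.congr_fun a2 x
      have c3 := DFunLike.congr_fun a3 x
      have c4 := DFunLike.congr_fun a4 x
      simp only [Finsupp.add_apply] at c1 c2 c3 c4 ⊢
      omega) hi
    simp only [decide_eq_true_eq, decide_eq_false_iff_not]
    exact ⟨fun e => ⟨e, this.1 e⟩, this.2⟩
  · have := vec_types hιZ (p1 := Q.1) (p2 := Q.2.2.2) (p3 := Q.2.2.1) (p4 := Q.2.1) (by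
      ext x
      have c1 := DFunLike.congr_fun b1 x
      have c2 := DFunLike.congr_fun b2 x
      have c3 := DFunLike.congr_fun b3 x
      have c4 := DFunLike.congr_fun b4 x
      simp only [Finsupp.add_apply] at c1 c2 c3 c4 ⊢
      omega) (mem_compl.2 hi)
    simp only [decide_eq_true_eq, decide_eq_false_iff_not, not_not]
    exact ⟨this.2, fun e => ⟨e, this.1 e⟩⟩

include hιY hιZ hY hZ hy hz hHY hHZ hNY hNZ in
theorem walk_count (L : ℕ) (Q : Quad w d) (ρ : ℕ → ℝ)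
    (hρ : ∀ i : Fin d, ρ i = if i ∈ S then y else z⁻¹) :
    (((Box α β (L + S.card) L ×ˢ Box α β (L + S.card) L ×ˢ Box α β L (L + Sᶜ.card) ×ˢ
        Box α β L (L + Sᶜ.card)).filter (Walk πY πZ Q)).card : ℝ) * y ^ S.card ≤
      HY * y ^ L * (HZ * z ^ L) * ∏ i : Fin d, if sgn S Q i.succ then ρ i else 1 := by
  have hz0 : 0 < z := by linarith
  have d1 := card_dom2 hy.le hHY hNY (L + S.card) S hιY Q.1 Q.2.2.2
  have d2 := card_dom2 hz0.le hHZ hNZ (L + Sᶜ.card) Sᶜ hιZ Q.1 Q.2.1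
  set A := (finsuppAntidiag (univ : Finset α) (L + S.card)).filter
      (fun x => vec S ιY Q.1 ≤ x ∧ vec S ιY Q.2.2.2 ≤ x)
  set B := (finsuppAntidiag (univ : Finset β) (L + Sᶜ.card)).filter
      (fun x => vec Sᶜ ιZ Q.1 ≤ x ∧ vec Sᶜ ιZ Q.2.1 ≤ x)
  have h1 : ((Box α β (L + S.card) L ×ˢ Box α β (L + S.card) L ×ˢ Box α β L (L + Sᶜ.card) ×ˢ
        Box α β L (L + Sᶜ.card)).filter (Walk πY πZ Q)).card ≤ (A ×ˢ B).card := by
    refine card_le_card_of_injOn (fun t => (t.1.1, t.2.2.1.2)) ?_ ?_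
    · intro t ht
      obtain ⟨t1, ⟨a1, b1⟩, ⟨a2, b2⟩, ⟨a3, b3⟩, ⟨a4, b4⟩⟩ := mem_filter.1 (mem_coe.1 ht)
      simp only [mem_product, mem_Box] at t1
      rw [hY] at a1 a4
      rw [hZ] at b1 b2
      refine mem_coe.2 (mem_product.2 ⟨mem_filter.2 ⟨mem_anti.2 t1.1.1, ?_, ?_⟩,
        mem_filter.2 ⟨mem_anti.2 t1.2.2.1.2, ?_, ?_⟩⟩)
      · simp only; rw [← a1]; exact le_add_self
      · simp only; rw [← a4]; exact le_add_self
      · simp only; rw [b1]; exact le_add_self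
      · simp only; rw [b2]; exact le_add_self
    · intro t ht t' ht' e
      obtain ⟨-, ⟨a1, b1⟩, ⟨a2, b2⟩, ⟨a3, b3⟩, ⟨a4, b4⟩⟩ := mem_filter.1 (mem_coe.1 ht)
      obtain ⟨-, ⟨a1', b1'⟩, ⟨a2', b2'⟩, ⟨a3', b3'⟩, ⟨a4', b4'⟩⟩ := mem_filter.1 (mem_coe.1 ht')
      have e1 : t.1.1 = t'.1.1 := (congrArg Prod.fst e :)
      have e2 : t.2.2.1.2 = t'.2.2.1.2 := (congrArg Prod.snd e :)
      have f1 : t.2.2.1.1 = t'.2.2.1.1 := add_right_cancel (a1.trans (e1.trans a1'.symm))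
      have f2 : t.2.2.2.1 = t'.2.2.2.1 := add_right_cancel (a4.trans (e1.trans a4'.symm))
      have f3 : t.1.2 = t'.1.2 := add_right_cancel (b1.symm.trans (e2.trans b1'))
      have f4 : t.2.1.2 = t'.2.1.2 := add_right_cancel (b2.symm.trans (e2.trans b2'))
      have f5 : t.2.1.1 = t'.2.1.1 := by rw [← a2, ← a2', f1]
      have f6 : t.2.2.2.2 = t'.2.2.2.2 := by rw [b4, b4', f3]
      exact Prod.ext (Prod.ext e1 f3) (Prod.ext (Prod.ext f5 f4) (Prod.ext (Prod.ext f1 e2)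
        (Prod.ext f2 f6)))
  rw [card_product] at h1
  have h2 := (Nat.cast_le (α := ℝ)).2 h1
  rw [Nat.cast_mul] at h2
  rw [← prod_mul_prod_compl S]
  have e1 : (∏ i ∈ S, if sgn S Q i.succ then ρ i else 1) *
      (∏ i ∈ S, if edge Q.1 i = edge Q.2.2.2 i then 1 else y) = y ^ S.card := by
    rw [← prod_mul_distrib, ← prod_const]
    refine prod_congr rfl (fun i hi => ?_)
    simp only [sgn, Fin.cons_succ, hρ, if_pos hi, decide_eq_true_eq]
    split_ifs <;> simp
  have e2 : (∏ i ∈ Sᶜ, if sgn S Q i.succ then ρ i else 1) *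
      (∏ i ∈ Sᶜ, if edge Q.1 i = edge Q.2.1 i then 1 else z) = 1 := by
    rw [← prod_mul_distrib]
    refine prod_eq_one (fun i hi => ?_)
    simp only [sgn, Fin.cons_succ, hρ, if_neg (mem_compl.1 hi), decide_eq_true_eq, ne_eq, ite_not]
    split_ifs
    · simp
    · exact inv_mul_cancel₀ hz0.ne'
  have p1 : 0 ≤ ∏ i ∈ S, if sgn S Q i.succ then ρ i else 1 :=
    prod_nonneg (fun i _ => by rw [hρ]; split_ifs <;> positivity)
  have p2 : 0 ≤ ∏ i ∈ Sᶜ, if sgn S Q i.succ then ρ i else 1 :=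
    prod_nonneg (fun i _ => by rw [hρ]; split_ifs <;> positivity)
  generalize (∏ i ∈ S, if sgn S Q i.succ then ρ i else 1) = u1 at *
  generalize (∏ i ∈ Sᶜ, if sgn S Q i.succ then ρ i else 1) = u2 at *
  generalize (∏ i ∈ S, if edge Q.1 i = edge Q.2.2.2 i then 1 else y) = v1 at *
  generalize (∏ i ∈ Sᶜ, if edge Q.1 i = edge Q.2.1 i then 1 else z) = v2 at *
  have g1 : (A.card : ℝ) * y ^ S.card ≤ HY * y ^ L * u1 := by
    refine le_of_mul_le_mul_right ?_ (pow_pos hy S.card)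
    calc _ = (A.card : ℝ) * (y ^ S.card * v1) * u1 := by rw [← e1]; ring
      _ ≤ HY * y ^ (L + S.card) * u1 := by gcongr
      _ = _ := by ring
  have g2 : (B.card : ℝ) ≤ HZ * z ^ L * u2 := by
    refine le_of_mul_le_mul_right ?_ (pow_pos hz0 Sᶜ.card)
    calc _ = (B.card : ℝ) * (z ^ Sᶜ.card * v2) * u2 := by
          rw [mul_assoc, mul_assoc, mul_comm v2, e2, mul_one]
      _ ≤ HZ * z ^ (L + Sᶜ.card) * u2 := by gcongr
      _ = _ := by ring
  calc _ ≤ (A.card : ℝ) * B.card * y ^ S.card := by gcongr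
    _ = (A.card * y ^ S.card) * B.card := by ring
    _ ≤ (HY * y ^ L * u1) * (HZ * z ^ L * u2) := by gcongr
    _ = _ := by ring

include hιY hιZ hY hZ hy hz hHY hHZ hNY hNZ in
theorem walk_total (L : ℕ) (ρ P : ℕ → ℝ) (hρ : ∀ i : Fin d, ρ i = if i ∈ S then y else z⁻¹)
    (hρ0 : ∀ j, 0 ≤ ρ j) (hP : ∀ j, P (j + 1) = P j * ρ j) (h1 : ∀ j, 1 ≤ z * P j)
    (h2 : ∀ j, P j ≤ z) :
    ((∑ Q ∈ Paths w d ×ˢ Paths w d ×ˢ Paths w d ×ˢ Paths w d,
      ((Box α β (L + S.card) L ×ˢ Box α β (L + S.card) L ×ˢ Box α β L (L + Sᶜ.card) ×ˢ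
        Box α β L (L + Sᶜ.card)).filter (Walk πY πZ Q)).card : ℕ) : ℝ) * y ^ S.card ≤
      HY * y ^ L * (HZ * z ^ L) * z * ((Paths w d).card * (w + z) ^ d) := by
  classical
  set T := Box α β (L + S.card) L ×ˢ Box α β (L + S.card) L ×ˢ Box α β L (L + Sᶜ.card) ×ˢ
        Box α β L (L + Sᶜ.card)
  set P4 := Paths w d ×ˢ Paths w d ×ˢ Paths w d ×ˢ Paths w d
  rw [← sum_filter_ne_zero, Nat.cast_sum, sum_mul]
  have hV : ∀ Q ∈ P4.filter (fun Q => (T.filter (Walk πY πZ Q)).card ≠ 0), Typed Q (sgn S Q) := by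
    intro Q hQ
    obtain ⟨q1, q2⟩ := mem_filter.1 hQ
    obtain ⟨t, ht⟩ := card_ne_zero.1 q2
    exact (mem_filter.1 ht).2.typed hιY hιZ hY hZ q1
  have hz0 : 0 < z := by linarith
  refine le_trans ?_ (mul_le_mul_of_nonneg_left (sum_typed_le hz0.le _ _ hV) (by positivity))
  rw [mul_sum]
  refine sum_le_sum (fun Q hQ => ?_)
  refine (walk_count hιY hιZ hY hZ hy hz hHY hHZ hNY hNZ L Q ρ hρ).trans ?_
  rw [mul_assoc _ z]
  gcongr
  refine (switch_bound hz ρ P hρ0 hP h1 h2 d (sgn S Q) rfl).trans ?_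
  rw [mul_comm z]
  gcongr
  split_ifs
  · exact h2 d
  · exact hz

theorem IMM_eq (K : Type u) [Field K] (w d : ℕ) :
    IMM K w d = ∑ p ∈ Paths w d, MvPolynomial.monomial (mon p) 1 := by
  refine sum_congr rfl (fun p _ => ?_)
  rw [mon, MvPolynomial.monomial_sum_one]
  rfl

include hιY hιZ hY hZ hy hz hHY hHZ hNY hNZ in
theorem Gam_IMM (K : Type u) [Field K] [CharZero K] (L : ℕ) (ρ P : ℕ → ℝ)
    (hρ : ∀ i : Fin d, ρ i = if i ∈ S then y else z⁻¹)
    (hρ0 : ∀ j, 0 ≤ ρ j) (hP : ∀ j, P (j + 1) = P j * ρ j) (h1 : ∀ j, 1 ≤ z * P j)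
    (h2 : ∀ j, P j ≤ z) :
    (((Paths w d).card : ℝ) * (Box α β L L).card) ^ 2 * y ^ S.card ≤
      Gam πY πZ (Box α β L (L + Sᶜ.card)) (Box α β (L + S.card) L) (IMM K w d) *
        (HY * y ^ L * (HZ * z ^ L) * z * ((Paths w d).card * (w + z) ^ d)) := by
  classical
  have hw := walk_total hιY hιZ hY hZ hy hz hHY hHZ hNY hNZ L ρ P hρ hρ0 hP h1 h2
  set R := Box α β L (L + Sᶜ.card) with hR
  set C := Box α β (L + S.card) L with hC
  let m : Cfg α β → Cfg α β → ℕ := fun r c =>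
    ∑ p ∈ Paths w d, if rel πY πZ (mon p) r c then 1 else 0
  let M : Matrix R C ℕ := Matrix.of fun r c => m r.1 c.1
  have e1 : Mat πY πZ R C (IMM K w d) = M.map (Nat.cast : ℕ → K) := by
    ext r c
    simp only [Mat, IMM_eq, Matrix.of_apply, map_sum, ent_monomial, Matrix.map_apply, M, m]
    push_cast
    rfl
  have e2 := rank_lower (K := K) M
  have e3 : (∑ c, ∑ c', ∑ r, ∑ r', M r c * M r c' * M r' c' * M r' c) =
      ∑ Q ∈ Paths w d ×ˢ Paths w d ×ˢ Paths w d ×ˢ Paths w d,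
        ((C ×ˢ C ×ˢ R ×ˢ R).filter (Walk πY πZ Q)).card := by
    simp only [card_filter]
    rw [sum_comm (s := Paths w d ×ˢ Paths w d ×ˢ Paths w d ×ˢ Paths w d)]
    simp only [M, Matrix.of_apply]
    rw [sum_product, ← sum_coe_sort C]
    refine sum_congr rfl (fun c _ => ?_)
    rw [sum_product, ← sum_coe_sort C]
    refine sum_congr rfl (fun c' _ => ?_)
    rw [sum_product, ← sum_coe_sort R]
    refine sum_congr rfl (fun r _ => ?_)
    rw [← sum_coe_sort R]
    refine sum_congr rfl (fun r' _ => ?_)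
    simp only [m, sum_product, mul_assoc]
    rw [sum_mul]
    refine sum_congr rfl (fun p1 _ => ?_)
    rw [sum_mul, mul_sum]
    refine sum_congr rfl (fun p2 _ => ?_)
    rw [sum_mul, mul_sum, mul_sum]
    refine sum_congr rfl (fun p3 _ => ?_)
    rw [mul_sum, mul_sum, mul_sum]
    refine sum_congr rfl (fun p4 _ => ?_)
    simp only [Walk, ite_zero_mul_ite_zero, mul_one]
  have e4 : (Paths w d).card * (Box α β L L).card ≤ ∑ r, ∑ c, M r c := by
    have : ∑ r, ∑ c, M r c = ∑ p ∈ Paths w d,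
        ((R ×ˢ C).filter (fun t => rel πY πZ (mon p) t.1 t.2)).card := by
      simp only [card_filter]
      rw [sum_comm (s := Paths w d), sum_product, ← sum_coe_sort R]
      refine sum_congr rfl (fun r _ => ?_)
      rw [← sum_coe_sort C]
      rfl
    rw [this, ← smul_eq_mul]
    refine card_nsmul_le_sum _ _ _ (fun p _ => ?_)
    refine card_le_card_of_injOn
      (fun x => ((x.1, x.2 + πZ (mon p)), (x.1 + πY (mon p), x.2))) ?_ ?_
    · intro x hx
      obtain ⟨x1, x2⟩ := mem_Box.1 (mem_coe.1 hx)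
      refine mem_coe.2 (mem_filter.2 ⟨mem_product.2 ⟨mem_Box.2 ⟨x1, ?_⟩, mem_Box.2 ⟨?_, x2⟩⟩,
        rfl, rfl⟩)
      · simp only [map_add, x2, hZ, vec_degree]
      · simp only [map_add, x1, hY, vec_degree]
    · intro x _ x' _ e
      exact Prod.ext (congrArg (·.1.1) e :) (congrArg (·.2.2) e :)
  rw [e3] at e2
  unfold Gam
  rw [e1]
  have e5 := (Nat.cast_le (α := ℝ)).2 e4
  rw [Nat.cast_mul] at e5
  calc _ ≤ ((∑ r, ∑ c, M r c : ℕ) : ℝ) ^ 2 * y ^ S.card := by gcongr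
    _ ≤ _ := mul_le_mul_of_nonneg_right e2 (by positivity)
    _ ≤ _ := by
      rw [mul_assoc]
      exact mul_le_mul_of_nonneg_left hw (Nat.cast_nonneg _)

end Main

end Vale.Agent.P346
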