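import Vale.Agent.P346.Core

/-!
Numerical choice of the parameters and the final lower bound.
-/

namespace Vale.Agent.P346

open Finset Real

set_option linter.unusedSectionVars false
set_option linter.unusedVariables false

universe u

theorem phi_odd {a ν : ℝ} (ha : 2 ≤ a) (hν : 1 ≤ ν) (m : ℕ) (h : ν ^ (2 * m) ≤ a) :
    phi (a ^ 4) ((a * ν) ^ 4) (2 * m + 1) ≤ a⁻¹ := by
  have ha0 : 0 < a := by linarith
  have hν0 : 0 < ν := by linarith
  have e1 : (2 * m + 1) / 2 = m := by omega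
  have e2 : 2 * m + 1 - (m + 1) = m := by omega
  have e3 : 2 * m + 1 - m = m + 1 := by omega
  unfold phi fb gb
  rw [if_neg (by omega), e1, e2, e3]
  have f1 : ((a * ν) ^ 4) ^ m / (a ^ 4) ^ (m + 1) = (ν ^ (2 * m)) ^ 2 / a ^ 4 := by
    field_simp; ring
  have f2 : (a ^ 4) ^ m / ((a * ν) ^ 4) ^ (m + 1) = 1 / (a ^ 4 * ν ^ (4 * m + 4)) := by
    field_simp; ring
  have f3 : (ν ^ (2 * m)) ^ 2 / a ^ 4 ≤ 1 / a ^ 2 := by
    calc _ ≤ a ^ 2 / a ^ 4 := by gcongr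
      _ = _ := by field_simp
  have f4 : 1 / (a ^ 4 * ν ^ (4 * m + 4)) ≤ 1 / a ^ 4 := by
    gcongr
    exact le_mul_of_one_le_right (by positivity) (one_le_pow₀ hν)
  rw [f1, f2]
  calc _ ≤ (1 / a ^ 2) ^ 3 + 1 / a ^ 4 := by gcongr
    _ = a⁻¹ * (1 / a ^ 5 + 1 / a ^ 3) := by field_simp
    _ ≤ a⁻¹ * (1 / 2 ^ 5 + 1 / 2 ^ 3) := by gcongr
    _ ≤ _ := mul_le_of_le_one_right (by positivity) (by norm_num)

theorem phi_even {a ν : ℝ} (ha : 2 ≤ a) (hν : 1 ≤ ν) (hg : 1 ≤ a ^ 16 * (ν ^ 2 - 1)) (m : ℕ)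
    (h : ν ^ (2 * m + 2) ≤ a) :
    phi (a ^ 4) ((a * ν) ^ 4) (2 * m + 2) ≤ ν⁻¹ ^ (2 * m + 2) := by
  have ha0 : 0 < a := by linarith
  have hν0 : 0 < ν := by linarith
  have e1 : (2 * m + 2) / 2 = m + 1 := by omega
  have e2 : 2 * m + 2 - (m + 1 + 1) = m := by omega
  have e3 : 2 * m + 2 - (m + 1) = m + 1 := by omega
  unfold phi fb gb
  rw [if_neg (by omega), e1, e2, e3]
  have f1 : ((a * ν) ^ 4) ^ m / (a ^ 4) ^ (m + 1 + 1) = (ν ^ (2 * m)) ^ 2 / a ^ 8 := by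
    field_simp; ring
  have f2 : (a ^ 4) ^ (m + 1) / ((a * ν) ^ 4) ^ (m + 1) = 1 / (ν ^ (2 * m + 2)) ^ 2 := by
    field_simp; ring
  have f3 : (ν ^ (2 * m)) ^ 2 / a ^ 8 ≤ 1 / a ^ 6 := by
    have : ν ^ (2 * m) ≤ a := (pow_le_pow_right₀ hν (by omega)).trans h
    calc _ ≤ a ^ 2 / a ^ 8 := by gcongr
      _ = _ := by field_simp
  have f4 : ν ^ 2 ≤ ν ^ (2 * m + 2) := pow_le_pow_right₀ hν (by omega)
  have f5 : 1 ≤ ν ^ 2 := one_le_pow₀ hν
  rw [f1, f2, inv_pow]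
  generalize ν ^ (2 * m + 2) = t at *
  have ht : 0 < t := by linarith
  have f6 : (1 / a ^ 6) ^ 3 ≤ (t - 1) / t ^ 2 := by
    calc _ = (1 / a ^ 16) / a ^ 2 := by field_simp
      _ ≤ (t - 1) / t ^ 2 := by
        gcongr
        · linarith
        · rw [div_le_iff₀ (by positivity)]
          nlinarith [pow_pos ha0 16]
  calc _ ≤ (1 / a ^ 6) ^ 3 + 1 / t ^ 2 := by gcongr
    _ ≤ (t - 1) / t ^ 2 + 1 / t ^ 2 := by gcongr
    _ = _ := by field_simp; ring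

theorem phi_le {a ν : ℝ} (ha : 2 ≤ a) (hν : 1 ≤ ν) (hg : 1 ≤ a ^ 16 * (ν ^ 2 - 1)) (τ : ℕ)
    (h : ν ^ τ ≤ a) (e : ℕ) (he : e ≤ τ) : phi (a ^ 4) ((a * ν) ^ 4) e ≤ ν⁻¹ ^ e := by
  have h' : ν ^ e ≤ a := (pow_le_pow_right₀ hν he).trans h
  rcases Nat.even_or_odd' e with ⟨m, rfl | rfl⟩
  · cases m with
    | zero => simp [phi_zero]
    | succ m => exact phi_even ha hν hg m h'
  · refine (phi_odd ha hν m ((pow_le_pow_right₀ hν (by omega)).trans h')).trans ?_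
    rw [inv_pow]
    exact inv_anti₀ (by positivity) h'

theorem lower_y (K : Type u) [Field K] [CharZero K] {n y : ℕ} (hy : 3 ^ 16 ≤ y) (h1 : y * y ≤ n)
    (Γ : Circuit K (Fin n × Fin n × Fin n)) (hΓ : Γ.Homogeneous) (hout : Γ.out = IMM K n n) :
    exp (y * log y / 32) ≤ Γ.size ^ 2 * ((n + 1) * n * (2 * y) ^ 2 * exp (2 * y)) := by
  set g := Nat.log 3 y with hg
  have g1 : 3 ^ g ≤ y := Nat.pow_log_le_self 3 (by omega)
  have g2 : y < 3 ^ (g + 1) := Nat.lt_pow_succ_log_self (by norm_num) y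
  have g3 : 16 ≤ g := Nat.le_log_of_pow_le (by norm_num) hy
  have g4 : g ≤ y := (Nat.lt_pow_self (by norm_num)).le.trans g1
  have g5 : y ≤ 4 ^ g := by
    obtain ⟨j, hj⟩ := Nat.exists_eq_add_of_le g3
    have : 3 ^ j ≤ 4 ^ j := Nat.pow_le_pow_left (by norm_num) j
    rw [hj] at g2 ⊢
    rw [pow_succ, pow_add] at g2
    rw [pow_add]
    omega
  have hy' : (3 : ℝ) ^ 16 ≤ y := by exact_mod_cast hy
  have hy0 : (0 : ℝ) < y := by linarith [show (0 : ℝ) < 3 ^ 16 by positivity]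
  have hg' : (16 : ℝ) ≤ g := by exact_mod_cast g3
  have hgy : (g : ℝ) ≤ y := by exact_mod_cast g4
  have hn : 0 < n := lt_of_lt_of_le (by positivity) ((Nat.mul_le_mul hy hy).trans h1)
  have hn' : (0 : ℝ) < n := by exact_mod_cast hn
  set x : ℝ := g / y with hx
  have x0 : 0 ≤ x := by positivity
  have x1 : x ≤ 1 := by rw [hx, div_le_one hy0]; exact hgy
  have xy : x * y = g := by rw [hx]; field_simp
  obtain ⟨a, a0, ha⟩ : ∃ a : ℝ, 0 ≤ a ∧ a ^ 16 = y :=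
    ⟨(y : ℝ) ^ ((16 : ℕ) : ℝ)⁻¹, by positivity, rpow_inv_natCast_pow hy0.le (by norm_num)⟩
  obtain ⟨ν, ν0, hν⟩ : ∃ ν : ℝ, 0 ≤ ν ∧ ν ^ 16 = 1 + x :=
    ⟨(1 + x) ^ ((16 : ℕ) : ℝ)⁻¹, by positivity,
      rpow_inv_natCast_pow (by positivity) (by norm_num)⟩
  have a2 : 2 ≤ a := le_of_pow_le_pow_left₀ (n := 16) (by norm_num) a0 (by
    rw [ha]; exact le_trans (by norm_num) hy')
  have ν1 : 1 ≤ ν := le_of_pow_le_pow_left₀ (n := 16) (by norm_num) ν0 (by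
    rw [hν, one_pow]; linarith)
  have hgap : 1 ≤ a ^ 16 * (ν ^ 2 - 1) := by
    have b : 1 + 1 / (y : ℝ) ≤ ν ^ 2 := by
      refine le_of_pow_le_pow_left₀ (n := 8) (by norm_num) (by positivity) ?_
      rw [← pow_mul, hν]
      have t0 : 0 ≤ 1 / (y : ℝ) := by positivity
      have t1 : 1 / (y : ℝ) ≤ 1 / 100 := by
        gcongr; exact le_trans (by norm_num) hy'
      have t2 : 16 * (1 / (y : ℝ)) ≤ x := by rw [hx, mul_one_div]; gcongr
      generalize 1 / (y : ℝ) = t at *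
      have s1 : (1 + t) ^ 2 ≤ 1 + 9 / 4 * t := by nlinarith
      have s2 : (1 + 9 / 4 * t) ^ 2 ≤ 1 + 6 * t := by nlinarith
      have s3 : (1 + 6 * t) ^ 2 ≤ 1 + 16 * t := by nlinarith
      calc _ = (((1 + t) ^ 2) ^ 2) ^ 2 := by ring
        _ ≤ ((1 + 9 / 4 * t) ^ 2) ^ 2 := by gcongr
        _ ≤ (1 + 6 * t) ^ 2 := by gcongr
        _ ≤ _ := by linarith
    rw [ha]
    calc (1 : ℝ) = y * (1 / y) := by field_simp
      _ ≤ _ := by gcongr; linarith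
  have hτ : ν ^ y ≤ a := by
    refine le_of_pow_le_pow_left₀ (n := 16) (by norm_num) a0 ?_
    rw [← pow_mul, mul_comm, pow_mul, hν, ha]
    calc (1 + x) ^ y ≤ exp x ^ y := by gcongr; linarith [add_one_le_exp x]
      _ = exp 1 ^ g := by rw [← exp_nat_mul, ← exp_nat_mul, mul_comm, xy, mul_one]
      _ ≤ 3 ^ g := by gcongr; exact exp_one_lt_three.le
      _ ≤ _ := by exact_mod_cast g1
  set E := exp (y * log y / 32) with hE
  have E0 : 0 < E := exp_pos _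
  have E32 : E ^ 32 = (y : ℝ) ^ y := by
    rw [hE, ← exp_nat_mul, show ((32 : ℕ) : ℝ) * (y * log y / 32) = y * log y by
      push_cast; ring, exp_nat_mul, exp_log hy0]
  have h3 : ν⁻¹ ^ n ≤ E⁻¹ := by
    rw [inv_pow]
    refine inv_anti₀ E0 (le_of_pow_le_pow_left₀ (n := 32) (by norm_num) (by positivity) ?_)
    have b1 : (2 : ℝ) ^ g ≤ (1 + x) ^ y := by
      have := rpow_one_add_le_one_add_mul_self (s := 1) (by norm_num) x0 x1
      rw [mul_one, one_add_one_eq_two] at this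
      calc (2 : ℝ) ^ g = ((2 : ℝ) ^ x) ^ y := by
            rw [← rpow_natCast, ← rpow_natCast, ← rpow_mul (by norm_num), xy]
        _ ≤ _ := by gcongr
    calc E ^ 32 = (y : ℝ) ^ y := E32
      _ ≤ ((4 : ℝ) ^ g) ^ y := by gcongr; exact_mod_cast g5
      _ = (((2 : ℝ) ^ g) ^ y) ^ 2 := by
          rw [sq, ← mul_pow, ← mul_pow]; norm_num
      _ ≤ (((1 + x) ^ y) ^ y) ^ 2 := by gcongr
      _ = ((1 + x) ^ (y * y)) ^ 2 := by rw [pow_mul]
      _ ≤ ((1 + x) ^ n) ^ 2 := by gcongr; linarith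
      _ = _ := by rw [← hν]; ring
  have h4 : a⁻¹ ^ y ≤ E⁻¹ := by
    rw [inv_pow]
    refine inv_anti₀ E0 (le_of_pow_le_pow_left₀ (n := 32) (by norm_num) (by positivity) ?_)
    calc E ^ 32 = (a ^ y) ^ 16 := by rw [E32, ← ha]; ring
      _ ≤ _ := pow_le_pow_right₀ (one_le_pow₀ (by linarith)) (by norm_num)
  have hv1 : 1 ≤ (a * ν) ^ 4 := one_le_pow₀ (by nlinarith)
  have hvz : ((a * ν) ^ 4) ^ 4 = ((y + g : ℕ) : ℝ) := by
    rw [← pow_mul, mul_pow, ha, hν]; push_cast; linarith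
  have c := core K (y := y) (z := y + g) (τ := y) hn (by omega) (by omega) (u := a ^ 4)
    (v := (a * ν) ^ 4) (x1 := ν⁻¹) (x2 := a⁻¹) (ε := E⁻¹) (one_le_pow₀ (by linarith)) hv1
    (by rw [← pow_mul, ha]) hvz (by positivity) (by positivity)
    (inv_le_one_of_one_le₀ (by linarith)) (phi_le a2 ν1 hgap y hτ)
    (phi_odd a2 ν1 0 (by simp; linarith)) h3 h4 Γ hΓ hout
  have z1 : ((y + g : ℕ) : ℝ) ≤ 2 * y := by push_cast; linarith
  have z2 : (a * ν) ^ 4 ≤ 2 * y := by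
    refine le_trans ?_ z1
    rw [← hvz]
    exact le_self_pow₀ hv1 (by norm_num)
  have z3 : ((n : ℝ) + (y + g : ℕ)) ^ n ≤ n ^ n * exp (2 * y) := by
    calc _ ≤ ((n : ℝ) + 2 * y) ^ n := by gcongr
      _ = n ^ n * (2 * y / n + 1) ^ n := by rw [← mul_pow]; congr 1; field_simp; ring
      _ ≤ n ^ n * exp (2 * y / n) ^ n := by gcongr; exact add_one_le_exp _
      _ = _ := by rw [← exp_nat_mul]; congr 2; field_simp
  have c2 : (n : ℝ) ^ (n + 1) ≤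
      Γ.size ^ 2 * E⁻¹ * ((n + 1) * (2 * y) * (2 * y) * (n ^ n * exp (2 * y)) * (n * n)) :=
    c.trans (by gcongr)
  refine le_of_mul_le_mul_right ?_ (show 0 < E⁻¹ * (n : ℝ) ^ (n + 1) by positivity)
  calc _ = (n : ℝ) ^ (n + 1) := by field_simp
    _ ≤ _ := c2
    _ = _ := by ring

theorem lower_bound (K : Type u) [Field K] [CharZero K] {n : ℕ} (hn : 3 ^ 256 * 3 ^ 256 ≤ n)
    (Γ : Circuit K (Fin n × Fin n × Fin n)) (hΓ : Γ.Homogeneous) (hout : Γ.out = IMM K n n) :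
    (n : ℝ) ^ (1 / 768 * √n) ≤ Γ.size := by
  set y := Nat.sqrt n with hy
  have y1 : y * y ≤ n := Nat.sqrt_le n
  have y2 : n < (y + 1) * (y + 1) := Nat.lt_succ_sqrt n
  have y3 : 3 ^ 256 ≤ y := Nat.le_sqrt.2 hn
  have h := lower_y K (le_trans (by norm_num) y3) y1 Γ hΓ hout
  have y4 : (3 : ℝ) ^ 256 ≤ y := by exact_mod_cast y3
  have y5 : (1000 : ℝ) ≤ y := le_trans (by norm_num) y4
  have y0 : (0 : ℝ) < y := by linarith
  have n1 : (n : ℝ) + 1 ≤ (y + 1) * (y + 1) := by exact_mod_cast y2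
  have n0 : (0 : ℝ) < n := by exact_mod_cast lt_of_lt_of_le (by positivity) hn
  have n2 : (n : ℝ) + 1 ≤ 4 * y ^ 2 := by nlinarith
  have l1 : 256 ≤ log y := by
    rw [le_log_iff_exp_le y0]
    refine le_trans ?_ y4
    rw [show (256 : ℝ) = (256 : ℕ) * 1 by norm_num, exp_nat_mul]
    gcongr
    exact exp_one_lt_three.le
  have l2 : log n ≤ 3 * log y := by
    rw [show (3 : ℝ) = (3 : ℕ) by norm_num, ← log_pow]
    exact log_le_log n0 (by nlinarith)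
  have l3 : √n ≤ 2 * y := sqrt_le_iff.2 ⟨by positivity, by nlinarith⟩
  have l4 : ((n : ℝ) + 1) * n * (2 * y) ^ 2 ≤ exp (7 * log y) := by
    rw [show (7 : ℝ) = (7 : ℕ) by norm_num, exp_nat_mul, exp_log y0]
    calc _ ≤ (4 * (y : ℝ) ^ 2) * (4 * y ^ 2) * (2 * y) ^ 2 := by gcongr; linarith
      _ = 64 * y ^ 6 := by ring
      _ ≤ y * y ^ 6 := by gcongr; linarith
      _ = _ := by ring
  refine le_of_pow_le_pow_left₀ (n := 2) (by norm_num) (by positivity) ?_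
  refine le_of_mul_le_mul_right ?_ (show 0 < exp (7 * log y) * exp (2 * y) by positivity)
  refine le_trans ?_ (h.trans (by gcongr))
  rw [rpow_def_of_pos n0, ← exp_nat_mul, ← exp_add, ← exp_add, exp_le_exp]
  have l5 : log n * √n ≤ 3 * log y * (2 * y) := by gcongr
  push_cast
  nlinarith

end Vale.Agent.P346
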